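import Vale.Agent.P134.H283.Gauss

set_option linter.all false

/-! A global Harnack inequality for the discrepancy of a bounded entire solution of the Allen-Cahn
equation. Notation: `f = (1-u^2)/√2`, `V_e = (f + ∂_e u)/2`, `D = f^2 - |∇u|^2` (`defi`). -/

namespace Vale.Agent.P134.H283

open Vale.Agent.P134 Vale.Agent.P134.SM MeasureTheory Filter Topology

variable {n : ℕ} {f g u V h : (Fin n → ℝ) → ℝ} {x y z e t : Fin n → ℝ} {i j q : Fin n}
  {b K M r : ℝ}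

/-! ### The functions `V_e` -/

/-- `V_e = ((1-u^2)/√2 + ∂_e u)/2`. -/
noncomputable def Vd (e : Fin n → ℝ) (u : (Fin n → ℝ) → ℝ) (x : Fin n → ℝ) : ℝ :=
  (psi u x / Real.sqrt 2 + dd e u x) / 2

lemma sqrt2_pos : (0:ℝ) < Real.sqrt 2 := by positivity
lemma sqrt2_sq : Real.sqrt 2 ^ 2 = 2 := Real.sq_sqrt (by norm_num)

lemma nice_u (hu : Sol u) : Nice u := Sol.nice hu

lemma nice_psi (hu : Sol u) : Nice (psi u) := by
  have e : psi u = fun y => 1 - u y * u y := by funext y; unfold psi; ring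
  rw [e]
  exact Nice.sub (Nice.const 1) (Nice.mul (nice_u hu) (nice_u hu))

lemma nice_dd (hf : Nice f) (e : Fin n → ℝ) : Nice (dd e f) :=
  Nice.sum _ fun i _ => Nice.cmul (e i) (hf.pd i)

lemma nice_Vd (hu : Sol u) (e : Fin n → ℝ) : Nice (Vd e u) := by
  have e1 : Vd e u = fun y => (1 / (2 * Real.sqrt 2)) * psi u y + (1 / 2) * dd e u y := by
    funext y; unfold Vd; have := sqrt2_pos; field_simp
  rw [e1]
  exact Nice.add (Nice.cmul _ (nice_psi hu)) (Nice.cmul _ (nice_dd (nice_u hu) e))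

lemma nice_defi (hu : Sol u) : Nice (defi u) := by
  have e1 : defi u = fun y => (1 / 2) * (psi u y * psi u y) - ∑ i, pd i u y * pd i u y := by
    funext y; unfold defi
    have : ∀ i, pd i u y ^ 2 = pd i u y * pd i u y := fun i => by ring
    simp_rw [this]; ring
  rw [e1]
  exact Nice.sub (Nice.cmul _ (Nice.mul (nice_psi hu) (nice_psi hu)))
    (Nice.sum _ fun i _ => Nice.mul ((nice_u hu).pd i) ((nice_u hu).pd i))

lemma lap_add (hf : Nice f) (hg : Nice g) (x : Fin n → ℝ) :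
    lap (fun y => f y + g y) x = lap f x + lap g x := by
  unfold H283.lap
  rw [← Finset.sum_add_distrib]
  refine Finset.sum_congr rfl fun i _ => ?_
  have e : pd i (fun y => f y + g y) = fun y => pd i f y + pd i g y := by
    funext y; exact pd_add (hf.1 y) (hg.1 y)
  rw [e, pd_add ((hf.pd i).1 x) ((hg.pd i).1 x)]

lemma pd_cmul (c : ℝ) (hf : Differentiable ℝ f) (i : Fin n) (x : Fin n → ℝ) :
    pd i (fun y => c * f y) x = c * pd i f x := by
  rw [pd_mul (f := fun _ => c) (by fun_prop) (hf x), pd_const]; ring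

lemma lap_cmul (c : ℝ) (hf : Nice f) (x : Fin n → ℝ) :
    lap (fun y => c * f y) x = c * lap f x := by
  unfold H283.lap
  rw [Finset.mul_sum]
  refine Finset.sum_congr rfl fun i _ => ?_
  have e : pd i (fun y => c * f y) = fun y => c * pd i f y := by
    funext y; exact pd_cmul c hf.1 i y
  rw [e, pd_cmul c (hf.pd i).1]

lemma lap_sum {ι : Type*} (s : Finset ι) {F : ι → (Fin n → ℝ) → ℝ} (hF : ∀ k ∈ s, Nice (F k))
    (x : Fin n → ℝ) : lap (fun y => ∑ k ∈ s, F k y) x = ∑ k ∈ s, lap (F k) x := by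
  unfold H283.lap
  rw [Finset.sum_comm]
  refine Finset.sum_congr rfl fun i _ => ?_
  have e : pd i (fun y => ∑ k ∈ s, F k y) = fun y => ∑ k ∈ s, pd i (F k) y := by
    funext y; exact pd_sum s fun k hk => (hF k hk).1 y
  rw [e, pd_sum s fun k hk => ((hF k hk).pd i).1 x]

/-- The linearised equation. -/
lemma lap_dd (hu : Sol u) (e x : Fin n → ℝ) :
    lap (dd e u) x = (3 * u x ^ 2 - 1) * dd e u x := by
  have hn := nice_u hu
  have e1 : ∀ i, lap (pd i u) x = (3 * u x ^ 2 - 1) * pd i u x := by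
    intro i
    rw [lap_pd hn]
    have : lap u = fun y => u y ^ 3 - u y := by funext y; exact hu.eq y
    rw [this, pd_cube_sub (hn.1 x)]
  have e2 : dd e u = fun y => ∑ i, e i * pd i u y := rfl
  rw [e2, lap_sum Finset.univ (F := fun i y => e i * pd i u y)
    (fun i _ => Nice.cmul (e i) (hn.pd i))]
  rw [Finset.mul_sum]
  refine Finset.sum_congr rfl fun i _ => ?_
  rw [lap_cmul (e i) (hn.pd i), e1]
  ring

lemma lap_Vd (hu : Sol u) (e x : Fin n → ℝ) :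
    lap (Vd e u) x = (3 * u x ^ 2 - 1) * Vd e u x + defi u x / Real.sqrt 2 := by
  have e1 : Vd e u = fun y => (1 / (2 * Real.sqrt 2)) * psi u y + (1 / 2) * dd e u y := by
    funext y; unfold Vd; have := sqrt2_pos; field_simp
  have hψ : lap (psi u) x = (3 * u x ^ 2 - 1) * psi u x + 2 * defi u x := hu.lap_psi x
  rw [e1, lap_add (Nice.cmul _ (nice_psi hu)) (Nice.cmul _ (nice_dd (nice_u hu) e)),
    lap_cmul _ (nice_psi hu), lap_cmul _ (nice_dd (nice_u hu) e), hψ, lap_dd hu]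
  have := sqrt2_pos
  field_simp
  ring

/-- Cauchy-Schwarz. -/
lemma dd_sq_le (he : ∑ i, e i ^ 2 ≤ 1) (u : (Fin n → ℝ) → ℝ) (x : Fin n → ℝ) :
    dd e u x ^ 2 ≤ ∑ i, pd i u x ^ 2 := by
  have h := Finset.sum_mul_sq_le_sq_mul_sq Finset.univ e (fun i => pd i u x)
  have h0 : 0 ≤ ∑ i, pd i u x ^ 2 := Finset.sum_nonneg fun _ _ => sq_nonneg _
  unfold dd
  nlinarith only [h, h0, he]

/-- Bessel's inequality for two orthogonal directions. -/
lemma dd_sq_add_le (he : ∑ i, e i ^ 2 ≤ 1) (ht : ∑ i, t i ^ 2 ≤ 1) (hte : ∑ i, t i * e i = 0)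
    (u : (Fin n → ℝ) → ℝ) (x : Fin n → ℝ) :
    dd t u x ^ 2 + dd e u x ^ 2 ≤ ∑ i, pd i u x ^ 2 := by
  set a := dd t u x with ha
  set c := dd e u x with hc
  have h0 : 0 ≤ ∑ i, (pd i u x - a * t i - c * e i) ^ 2 := Finset.sum_nonneg fun _ _ => sq_nonneg _
  have h1 : ∑ i, (pd i u x - a * t i - c * e i) ^ 2
      = ∑ i, pd i u x ^ 2 - 2 * a * ∑ i, t i * pd i u x - 2 * c * ∑ i, e i * pd i u x
        + a ^ 2 * ∑ i, t i ^ 2 + c ^ 2 * ∑ i, e i ^ 2 + 2 * a * c * ∑ i, t i * e i := by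
    simp only [Finset.mul_sum]
    rw [← Finset.sum_sub_distrib, ← Finset.sum_sub_distrib, ← Finset.sum_add_distrib,
      ← Finset.sum_add_distrib, ← Finset.sum_add_distrib]
    refine Finset.sum_congr rfl fun i _ => ?_
    ring
  have h2 : ∑ i, t i * pd i u x = a := rfl
  have h3 : ∑ i, e i * pd i u x = c := rfl
  rw [h1, h2, h3, hte] at h0
  nlinarith only [h0, mul_nonneg (sq_nonneg a) (sub_nonneg.mpr ht),
    mul_nonneg (sq_nonneg c) (sub_nonneg.mpr he)]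

lemma dd_abs_le_f (hu : Sol u) (he : ∑ i, e i ^ 2 ≤ 1) (x : Fin n → ℝ) :
    |dd e u x| ≤ psi u x / Real.sqrt 2 := by
  have h1 := dd_sq_le he u x
  have h2 := hu.modica x
  have h3 := hu.psi_nonneg x
  apply abs_le_of_sq_le_sq _ (by have := sqrt2_pos; positivity)
  rw [div_pow, sqrt2_sq]
  unfold psi
  linarith

lemma dd_neg_left (e : Fin n → ℝ) (u : (Fin n → ℝ) → ℝ) (x : Fin n → ℝ) :
    dd (-e) u x = - dd e u x := by
  unfold dd
  rw [← Finset.sum_neg_distrib]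
  refine Finset.sum_congr rfl fun i _ => ?_
  simp

lemma Vd_nonneg (hu : Sol u) (he : ∑ i, e i ^ 2 ≤ 1) (x : Fin n → ℝ) : 0 ≤ Vd e u x := by
  have := (abs_le.mp (dd_abs_le_f hu he x)).1
  unfold Vd
  linarith

lemma neg_unit (he : ∑ i, e i ^ 2 ≤ 1) : ∑ i, (-e) i ^ 2 ≤ 1 := by
  simpa using he

lemma Vd_mul_Vd_neg (e : Fin n → ℝ) (u : (Fin n → ℝ) → ℝ) (x : Fin n → ℝ) :
    4 * (Vd e u x * Vd (-e) u x) = psi u x ^ 2 / 2 - dd e u x ^ 2 := by
  unfold Vd
  rw [dd_neg_left]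
  have h := sqrt2_sq
  have h0 := sqrt2_pos
  have : (psi u x / Real.sqrt 2) ^ 2 = psi u x ^ 2 / 2 := by rw [div_pow, h]
  linear_combination this

lemma Vd_add_Vd_neg (e : Fin n → ℝ) (u : (Fin n → ℝ) → ℝ) (x : Fin n → ℝ) :
    Vd e u x + Vd (-e) u x = psi u x / Real.sqrt 2 := by
  unfold Vd
  rw [dd_neg_left]
  ring

lemma Vd_le_f (hu : Sol u) (he : ∑ i, e i ^ 2 ≤ 1) (x : Fin n → ℝ) :
    Vd e u x ≤ psi u x / Real.sqrt 2 := by
  have h1 := Vd_nonneg hu (neg_unit he) x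
  have h2 := Vd_add_Vd_neg e u x
  linarith

/-- `D ≤ 4 V_e V_{-e}`. -/
lemma defi_le_Vd (he : ∑ i, e i ^ 2 ≤ 1) (u : (Fin n → ℝ) → ℝ) (x : Fin n → ℝ) :
    defi u x ≤ 4 * (Vd e u x * Vd (-e) u x) := by
  rw [Vd_mul_Vd_neg]
  have := dd_sq_le he u x
  unfold defi
  linarith

/-- `Δ V_e ≤ (1+u^2) V_e`. -/
lemma lap_Vd_le (hu : Sol u) (he : ∑ i, e i ^ 2 ≤ 1) (x : Fin n → ℝ) :
    lap (Vd e u) x ≤ (1 + u x ^ 2) * Vd e u x := by
  rw [lap_Vd hu]
  have h1 := defi_le_Vd he u x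
  have h2 := Vd_le_f hu (neg_unit he) x
  have h3 := Vd_nonneg hu he x
  have h0 := sqrt2_pos
  have hs := sqrt2_sq
  have h4 : defi u x / Real.sqrt 2 ≤ 2 * psi u x * Vd e u x := by
    rw [div_le_iff₀ h0]
    calc defi u x ≤ 4 * (Vd e u x * Vd (-e) u x) := h1
      _ ≤ 4 * (Vd e u x * (psi u x / Real.sqrt 2)) := by gcongr
      _ = 2 * psi u x * Vd e u x * Real.sqrt 2 := by
          field_simp
          rw [hs]; ring
  unfold psi at h4
  nlinarith only [h4]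

lemma neg_le_lap_Vd (hu : Sol u) (he : ∑ i, e i ^ 2 ≤ 1) (x : Fin n → ℝ) :
    -Vd e u x ≤ lap (Vd e u) x := by
  rw [lap_Vd hu]
  have h3 := Vd_nonneg hu he x
  have h4 : 0 ≤ defi u x / Real.sqrt 2 := div_nonneg (hu.defi_nonneg x) sqrt2_pos.le
  nlinarith only [h4, mul_nonneg (sq_nonneg (u x)) h3]

lemma u_sq_le (hu : Sol u) (x : Fin n → ℝ) : u x ^ 2 ≤ 1 := by
  have := abs_le.mp (hu.bd x)
  nlinarith only [this]

lemma abs_lap_Vd_le (hu : Sol u) (he : ∑ i, e i ^ 2 ≤ 1) (x : Fin n → ℝ) :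
    |lap (Vd e u) x| ≤ 2 * Vd e u x := by
  have h1 := lap_Vd_le hu he x
  have h2 := neg_le_lap_Vd hu he x
  have h3 := Vd_nonneg hu he x
  have h4 := u_sq_le hu x
  rw [abs_le]
  constructor
  · linarith
  · nlinarith only [h1, h3, h4, mul_nonneg (sub_nonneg.mpr h4) h3]

/-- **(H1)** gradient bound `|∂ V_e| ≤ C V_e`. -/
theorem abs_pd_Vd_le (hu : Sol u) (he : ∑ i, e i ^ 2 ≤ 1) (q : Fin n) (x : Fin n → ℝ) :
    |pd q (Vd e u) x| ≤ cH n 2 * Vd e u x :=
  abs_pd_le (nice_Vd hu e) (by norm_num) (Vd_nonneg hu he) (abs_lap_Vd_le hu he) q x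

/-- **(H1)** Harnack inequality for `V_e`. -/
theorem harnack_Vd (hu : Sol u) (he : ∑ i, e i ^ 2 ≤ 1) (x y : Fin n → ℝ) :
    Vd e u y ≤ Real.exp (n * cH n 2 * ‖y - x‖) * Vd e u x :=
  harnack (nice_Vd hu e) (by norm_num) (Vd_nonneg hu he) (abs_lap_Vd_le hu he) x y

/-! ### The normal direction -/

/-- The length of the gradient. -/
noncomputable def gw (u : (Fin n → ℝ) → ℝ) (x : Fin n → ℝ) : ℝ := Real.sqrt (∑ i, pd i u x ^ 2)

/-- The unit normal (zero at critical points). -/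
noncomputable def nu (u : (Fin n → ℝ) → ℝ) (x : Fin n → ℝ) : Fin n → ℝ :=
  fun i => pd i u x / gw u x

lemma gw_nonneg (u : (Fin n → ℝ) → ℝ) (x : Fin n → ℝ) : 0 ≤ gw u x := Real.sqrt_nonneg _

lemma gw_sq (u : (Fin n → ℝ) → ℝ) (x : Fin n → ℝ) : gw u x ^ 2 = ∑ i, pd i u x ^ 2 :=
  Real.sq_sqrt (Finset.sum_nonneg fun _ _ => sq_nonneg _)

lemma nu_sq (u : (Fin n → ℝ) → ℝ) (x : Fin n → ℝ) (h : gw u x ≠ 0) :
    ∑ i, nu u x i ^ 2 = 1 := by
  unfold nu
  simp_rw [div_pow]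
  rw [← Finset.sum_div, ← gw_sq]
  exact div_self (pow_ne_zero 2 h)

lemma nu_sq_le (u : (Fin n → ℝ) → ℝ) (x : Fin n → ℝ) : ∑ i, nu u x i ^ 2 ≤ 1 := by
  by_cases h : gw u x = 0
  · unfold nu; simp [h]
  · exact (nu_sq u x h).le

lemma gw_mul_nu (u : (Fin n → ℝ) → ℝ) (x : Fin n → ℝ) (i : Fin n) :
    gw u x * nu u x i = pd i u x := by
  by_cases h : gw u x = 0
  · have h1 := gw_sq u x
    rw [h] at h1
    have h2 : ∑ i, pd i u x ^ 2 = 0 := by rw [← h1]; norm_num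
    have h3 := (Finset.sum_eq_zero_iff_of_nonneg (fun i _ => sq_nonneg (pd i u x))).mp h2 i
      (Finset.mem_univ i)
    have h4 : pd i u x = 0 := pow_eq_zero_iff (two_ne_zero) |>.mp h3
    rw [h, h4, zero_mul]
  · unfold nu; field_simp

lemma dd_nu (u : (Fin n → ℝ) → ℝ) (x : Fin n → ℝ) : dd (nu u x) u x = gw u x := by
  by_cases h : gw u x = 0
  · unfold dd nu; simp [h]
  · unfold dd nu
    have : ∀ i, pd i u x / gw u x * pd i u x = pd i u x ^ 2 / gw u x := fun i => by ring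
    simp_rw [this]
    rw [← Finset.sum_div, ← gw_sq]
    field_simp

/-- At `x`, with `e = ν(x)`: `D = 4 V_e V_{-e}`. -/
lemma defi_eq_Vd (u : (Fin n → ℝ) → ℝ) (x : Fin n → ℝ) :
    defi u x = 4 * (Vd (nu u x) u x * Vd (-nu u x) u x) := by
  rw [Vd_mul_Vd_neg, dd_nu, gw_sq]
  rfl

lemma defi_eq_gw (u : (Fin n → ℝ) → ℝ) (x : Fin n → ℝ) :
    defi u x = psi u x ^ 2 / 2 - gw u x ^ 2 := by
  rw [gw_sq]; rfl

/-- First derivatives of `D` and of `4 V_e V_{-e}` agree at `x`, `e = ν(x)`. -/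
lemma pd_defi_eq (hu : Sol u) (q : Fin n) (x : Fin n → ℝ) :
    pd q (defi u) x = 4 * (Vd (nu u x) u x * pd q (Vd (-nu u x) u) x
      + Vd (-nu u x) u x * pd q (Vd (nu u x) u) x) := by
  set e := nu u x with he
  have hV1 := nice_Vd hu e
  have hV2 := nice_Vd hu (-e)
  have hP : Nice (fun y => 4 * (Vd e u y * Vd (-e) u y)) := Nice.cmul 4 (Nice.mul hV1 hV2)
  have hmin : IsLocalMin (fun y => 4 * (Vd e u y * Vd (-e) u y) - defi u y) x := by
    apply Filter.Eventually.of_forall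
    intro y
    simp only
    rw [← defi_eq_Vd u x, sub_self]
    have := defi_le_Vd (nu_sq_le u x) u y
    linarith
  have h0 := hmin.fderiv_eq_zero
  have h1 : pd q (fun y => 4 * (Vd e u y * Vd (-e) u y) - defi u y) x = 0 := by
    unfold pd; rw [h0]; rfl
  rw [pd_sub (hP.1 x) ((nice_defi hu).1 x), pd_cmul 4 (Nice.mul hV1 hV2).1,
    pd_mul (hV1.1 x) (hV2.1 x)] at h1
  linarith

/-- **(H3)** `|∂ D| ≤ C D` everywhere. -/
theorem abs_pd_defi_le (hu : Sol u) (q : Fin n) (x : Fin n → ℝ) :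
    |pd q (defi u) x| ≤ 2 * cH n 2 * defi u x := by
  rw [pd_defi_eq hu q x]
  have he := nu_sq_le u x
  have h1 := Vd_nonneg hu he x
  have h2 := Vd_nonneg hu (neg_unit he) x
  have h3 := abs_pd_Vd_le hu he q x
  have h4 := abs_pd_Vd_le hu (neg_unit he) q x
  rw [abs_mul, abs_of_pos (by norm_num : (0:ℝ) < 4)]
  have h5 : |Vd (nu u x) u x * pd q (Vd (-nu u x) u) x
      + Vd (-nu u x) u x * pd q (Vd (nu u x) u) x|
      ≤ Vd (nu u x) u x * (cH n 2 * Vd (-nu u x) u x)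
        + Vd (-nu u x) u x * (cH n 2 * Vd (nu u x) u x) := by
    refine (abs_add_le _ _).trans (add_le_add ?_ ?_)
    · rw [abs_mul, abs_of_nonneg h1]; exact mul_le_mul_of_nonneg_left h4 h1
    · rw [abs_mul, abs_of_nonneg h2]; exact mul_le_mul_of_nonneg_left h3 h2
  rw [defi_eq_Vd u x]
  nlinarith only [h5]

/-- **(H3)** Harnack inequality for `D`. -/
theorem harnack_defi (hu : Sol u) (x y : Fin n → ℝ) :
    defi u y ≤ Real.exp (n * (2 * cH n 2) * ‖y - x‖) * defi u x :=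
  harnack_of_grad (nice_defi hu).1 (by have := cH_pos n (K := 2) (by norm_num); positivity)
    hu.defi_nonneg (fun q x => abs_pd_defi_le hu q x) x y

end Vale.Agent.P134.H283
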