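import Vale.Agent.P134.H283.Harnack
import Vale.Agent.P134.SM.Nu2

set_option linter.all false

/-! Derivatives of the tangential derivatives `u_t`, `t ⊥ ν(x)`, are bounded by `C √D(x)`. -/

namespace Vale.Agent.P134.H283

open Vale.Agent.P134 Vale.Agent.P134.SM MeasureTheory Filter Topology

variable {n : ℕ} {f g u V h a : (Fin n → ℝ) → ℝ} {x y z e t : Fin n → ℝ} {i j q : Fin n}
  {b K M r C : ℝ}

/-! ### Iterated derivatives -/

lemma ipd_append (l : List (Fin n)) (i : Fin n) (f : (Fin n → ℝ) → ℝ) :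
    ipd (l ++ [i]) f = ipd l (pd i f) := by
  induction l with
  | nil => rfl
  | cons j l ih => rw [List.cons_append, ipd_cons, ipd_cons, ih]

lemma ipd_add (hf : Nice f) (hg : Nice g) (l : List (Fin n)) :
    ipd l (fun y => f y + g y) = fun y => ipd l f y + ipd l g y := by
  induction l with
  | nil => rfl
  | cons j l ih =>
      rw [ipd_cons, ih]
      funext y
      rw [pd_add ((hf.ipd l).1 y) ((hg.ipd l).1 y)]
      rfl

lemma ipd_mul_le : ∀ (k : ℕ) (a h : (Fin n → ℝ) → ℝ), Nice a → Nice h → ∀ (A : ℝ)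
    (B : (Fin n → ℝ) → ℝ),
    (∀ l : List (Fin n), l.length ≤ k → ∀ y, |ipd l a y| ≤ A) →
    (∀ l : List (Fin n), l.length ≤ k → ∀ y, |ipd l h y| ≤ B y) →
    ∀ l : List (Fin n), l.length ≤ k → ∀ y, |ipd l (fun z => a z * h z) y| ≤ 2 ^ k * (A * B y) := by
  intro k
  induction k with
  | zero =>
      intro a h _ _ A B hA hB l hl y
      have hl0 : l = [] := List.length_eq_zero_iff.mp (Nat.le_zero.mp hl)
      subst hl0
      rw [ipd_nil, abs_mul, pow_zero, one_mul]
      have h1 := hA [] (by simp) y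
      have h2 := hB [] (by simp) y
      exact mul_le_mul h1 h2 (abs_nonneg _) ((abs_nonneg _).trans h1)
  | succ k ih =>
      intro a h ha hh A B hA hB l hl y
      have hA0 : 0 ≤ A := (abs_nonneg _).trans (hA [] (by simp) y)
      have hB0 : 0 ≤ B y := (abs_nonneg _).trans (hB [] (by simp) y)
      rcases List.eq_nil_or_concat l with rfl | ⟨l', i, rfl⟩
      · rw [ipd_nil, abs_mul]
        have h1 := hA [] (by simp) y
        have h2 := hB [] (by simp) y
        have h3 : |a y| * |h y| ≤ A * B y :=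
          mul_le_mul h1 h2 (abs_nonneg _) ((abs_nonneg _).trans h1)
        refine h3.trans ?_
        have : (1:ℝ) ≤ 2 ^ (k + 1) := one_le_pow₀ (by norm_num)
        nlinarith only [this, mul_nonneg hA0 hB0]
      · rw [List.concat_eq_append] at hl ⊢
        have hl' : l'.length ≤ k := by
          rw [List.length_append, List.length_singleton] at hl; omega
        rw [ipd_append]
        have e : pd i (fun z => a z * h z) = fun z => a z * pd i h z + pd i a z * h z := by
          funext z; rw [pd_mul (ha.1 z) (hh.1 z)]; ring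
        rw [e, ipd_add (Nice.mul ha (hh.pd i)) (Nice.mul (ha.pd i) hh)]
        have h1 := ih a (pd i h) ha (hh.pd i) A B (fun l hl y => hA l (by omega) y)
          (fun l hl y => by
            rw [← ipd_append]; exact hB _ (by rw [List.length_append]; simp; omega) y) l' hl' y
        have h2 := ih (pd i a) h (ha.pd i) hh A B (fun l hl y => by
            rw [← ipd_append]; exact hA _ (by rw [List.length_append]; simp; omega) y)
          (fun l hl y => hB l (by omega) y) l' hl' y
        calc |ipd l' (fun z => a z * pd i h z) y + ipd l' (fun z => pd i a z * h z) y|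
            ≤ 2 ^ k * (A * B y) + 2 ^ k * (A * B y) := (abs_add_le _ _).trans (add_le_add h1 h2)
          _ = 2 ^ (k + 1) * (A * B y) := by rw [pow_succ]; ring

lemma lap_ipd (hf : Nice f) (l : List (Fin n)) : lap (ipd l f) = ipd l (lap f) := by
  induction l with
  | nil => rfl
  | cons j l ih => rw [ipd_cons, lap_pd (hf.ipd l), ih]; rfl

/-- Bootstrap of the gradient estimate. -/
theorem bootstrap (n : ℕ) (hK : 0 ≤ K) : ∀ (k : ℕ) (A : ℝ), 0 ≤ A → ∃ C : ℝ, 1 ≤ C ∧
    ∀ (a h : (Fin n → ℝ) → ℝ), Nice a → Nice h → (∀ x, lap h x = a x * h x) →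
    (∀ l : List (Fin n), l.length ≤ k → ∀ y, |ipd l a y| ≤ A) →
    ∀ (x : Fin n → ℝ) (M : ℝ), (∀ y, |h y| ≤ M * Real.exp (K * ‖y - x‖)) →
    ∀ l : List (Fin n), l.length ≤ k → ∀ y, |ipd l h y| ≤ C * (M * Real.exp (K * ‖y - x‖)) := by
  intro k
  induction k with
  | zero =>
      intro A _
      refine ⟨1, le_rfl, fun a h _ _ _ _ x M hM l hl y => ?_⟩
      have hl0 : l = [] := List.length_eq_zero_iff.mp (Nat.le_zero.mp hl)
      subst hl0
      rw [ipd_nil, one_mul]
      exact hM y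
  | succ k ih =>
      intro A hA0
      obtain ⟨C, hC1, hC⟩ := ih A hA0
      have hG := cG_pos n K
      have hC0 : 0 ≤ C := by linarith
      have hX : 0 ≤ cG n K * (C + 2 ^ k * (A * C)) := by positivity
      refine ⟨C + cG n K * (C + 2 ^ k * (A * C)), by linarith,
        fun a h ha hh hlap hA x M hM l hl y => ?_⟩
      have hM0 : 0 ≤ M := by
        have := (abs_nonneg _).trans (hM x)
        simpa using this
      have hB := hC a h ha hh hlap (fun l hl y => hA l (by omega) y) x M hM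
      have hE : 0 ≤ M * Real.exp (K * ‖y - x‖) := mul_nonneg hM0 (Real.exp_pos _).le
      rcases l with _ | ⟨i, l⟩
      · rw [ipd_nil]
        refine (hM y).trans ?_
        nlinarith only [hC1, hE, mul_nonneg hX hE, mul_nonneg (sub_nonneg.mpr hC1) hE]
      · have hl' : l.length ≤ k := by simpa using hl
        rw [ipd_cons]
        -- the function `ipd l h`
        have h0 : ∀ z, |ipd l h z| ≤ (C * (M * Real.exp (K * ‖y - x‖)))
            * Real.exp (K * ‖z - y‖) := by
          intro z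
          refine (hB l hl' z).trans ?_
          have h1 : ‖z - x‖ ≤ ‖y - x‖ + ‖z - y‖ := by
            have := norm_add_le (y - x) (z - y)
            have e : y - x + (z - y) = z - x := by abel
            rwa [e] at this
          have h2 : Real.exp (K * ‖z - x‖) ≤ Real.exp (K * ‖y - x‖) * Real.exp (K * ‖z - y‖) := by
            rw [← Real.exp_add, ← mul_add]
            exact Real.exp_le_exp.mpr (mul_le_mul_of_nonneg_left h1 hK)
          calc C * (M * Real.exp (K * ‖z - x‖))
              ≤ C * (M * (Real.exp (K * ‖y - x‖) * Real.exp (K * ‖z - y‖))) := by gcongr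
            _ = (C * (M * Real.exp (K * ‖y - x‖))) * Real.exp (K * ‖z - y‖) := by ring
        have h1 : ∀ z, |lap (ipd l h) z| ≤ (2 ^ k * (A * (C * (M * Real.exp (K * ‖y - x‖)))))
            * Real.exp (K * ‖z - y‖) := by
          intro z
          rw [lap_ipd hh]
          have e : lap h = fun z => a z * h z := by funext z; exact hlap z
          rw [e]
          refine (ipd_mul_le k a h ha hh A (fun z => C * (M * Real.exp (K * ‖z - x‖)))
            (fun l hl y => hA l (by omega) y) hB l hl' z).trans ?_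
          have h1 : ‖z - x‖ ≤ ‖y - x‖ + ‖z - y‖ := by
            have := norm_add_le (y - x) (z - y)
            have e : y - x + (z - y) = z - x := by abel
            rwa [e] at this
          have h2 : Real.exp (K * ‖z - x‖) ≤ Real.exp (K * ‖y - x‖) * Real.exp (K * ‖z - y‖) := by
            rw [← Real.exp_add, ← mul_add]
            exact Real.exp_le_exp.mpr (mul_le_mul_of_nonneg_left h1 hK)
          calc 2 ^ k * (A * (C * (M * Real.exp (K * ‖z - x‖))))
              ≤ 2 ^ k * (A * (C * (M * (Real.exp (K * ‖y - x‖) * Real.exp (K * ‖z - y‖))))) := by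
                gcongr
            _ = _ := by ring
        set M' : ℝ := (C + 2 ^ k * (A * C)) * (M * Real.exp (K * ‖y - x‖)) with hM'
        have h3 : 0 ≤ (2:ℝ) ^ k * (A * C) * (M * Real.exp (K * ‖y - x‖)) := by positivity
        have h4 : 0 ≤ C * (M * Real.exp (K * ‖y - x‖)) := by positivity
        have h5 := abs_pd_le_of_exp (hh.ipd l) hK (M := M') y
          (fun z => (h0 z).trans (mul_le_mul_of_nonneg_right (by rw [hM']; linarith)
            (Real.exp_pos _).le))
          (fun z => (h1 z).trans (mul_le_mul_of_nonneg_right (by rw [hM']; linarith)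
            (Real.exp_pos _).le)) i
        refine h5.trans ?_
        rw [hM']
        nlinarith only [h4]

/-- Bounds of the derivatives of `3u²-1`. -/
lemma exists_pot_bound (n k : ℕ) : ∃ A : ℝ, 0 ≤ A ∧ ∀ u : (Fin n → ℝ) → ℝ, Sol u →
    Nice (fun y => 3 * (u y * u y) - 1) ∧
    ∀ l : List (Fin n), l.length ≤ k → ∀ y, |ipd l (fun y => 3 * (u y * u y) - 1) y| ≤ A := by
  obtain ⟨C, hC1, hC⟩ := SM.Sol.ipd_bound n k
  have key : ∀ (c : ℝ) (l : List (Fin n)), l.length ≤ k → ∀ y,
      |ipd l (fun _ : Fin n → ℝ => c) y| ≤ |c| := by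
    intro c l _ y
    rcases l with _ | ⟨i, l⟩
    · rw [ipd_nil]
    · have : ∀ l : List (Fin n), ∃ d : ℝ, ipd l (fun _ : Fin n → ℝ => c) = fun _ => d := by
        intro l
        induction l with
        | nil => exact ⟨c, rfl⟩
        | cons j l ih =>
            obtain ⟨d, hd⟩ := ih
            exact ⟨0, by rw [ipd_cons, hd]; funext y; exact pd_const d⟩
      obtain ⟨d, hd⟩ := this l
      rw [ipd_cons, hd, pd_const, abs_zero]
      exact abs_nonneg _
  refine ⟨2 ^ k * (3 * (2 ^ k * (C * C))) + 1, by positivity, fun u hu => ?_⟩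
  have hn := nice_u hu
  have h1 : Nice (fun y => 3 * (u y * u y)) := Nice.cmul 3 (Nice.mul hn hn)
  refine ⟨Nice.sub h1 (Nice.const 1), fun l hl y => ?_⟩
  have e : (fun y => 3 * (u y * u y) - 1) = fun y => 3 * (u y * u y) + (-1) := by
    funext y; ring
  rw [e, ipd_add h1 (Nice.const (-1))]
  refine (abs_add_le _ _).trans (add_le_add ?_ ?_)
  · refine ipd_mul_le k (fun _ => 3) (fun y => u y * u y) (Nice.const 3) (Nice.mul hn hn) 3
      (fun _ => 2 ^ k * (C * C)) (fun l hl y => ?_) (fun l hl y => ?_) l hl y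
    · have := key 3 l hl y
      rwa [abs_of_pos (by norm_num : (0:ℝ) < 3)] at this
    · exact ipd_mul_le k u u hn hn C (fun _ => C) (fun l hl y => hC u hu l hl y)
        (fun l hl y => hC u hu l hl y) l hl y
  · have := key (-1) l hl y
    rwa [abs_neg, abs_one] at this

/-- The exponent of all Harnack inequalities. -/
noncomputable def kH (n : ℕ) : ℝ := n * cH n 2

lemma kH_nonneg (n : ℕ) : 0 ≤ kH n := by
  have := cH_pos n (K := 2) (by norm_num)
  unfold kH; positivity

/-- Tangential derivatives are controlled by `√D`. -/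
lemma abs_dd_tang_le (hu : Sol u) (x : Fin n → ℝ) (ht : ∑ i, t i ^ 2 ≤ 1)
    (hte : ∑ i, t i * H283.nu u x i = 0) (y : Fin n → ℝ) :
    |dd t u y| ≤ Real.sqrt (defi u x) * Real.exp (kH n * ‖y - x‖) := by
  set e := H283.nu u x with he
  have he1 := nu_sq_le u x
  have h1 := dd_sq_add_le he1 ht hte u y
  have h2 := hu.modica y
  have h3 : dd t u y ^ 2 ≤ 4 * (Vd e u y * Vd (-e) u y) := by
    rw [Vd_mul_Vd_neg]
    unfold psi
    linarith
  have h4 := harnack_Vd hu he1 x y
  have h5 := harnack_Vd hu (neg_unit he1) x y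
  have h6 := Vd_nonneg hu he1 y
  have h7 := Vd_nonneg hu (neg_unit he1) y
  have h8 := Vd_nonneg hu he1 x
  have h9 : Vd e u y * Vd (-e) u y
      ≤ (Real.exp (kH n * ‖y - x‖) * Vd e u x) * (Real.exp (kH n * ‖y - x‖) * Vd (-e) u x) :=
    mul_le_mul h4 h5 h7 (mul_nonneg (Real.exp_pos _).le h8)
  have hD : defi u x = 4 * (Vd e u x * Vd (-e) u x) := defi_eq_Vd u x
  have hD0 := hu.defi_nonneg x
  apply abs_le_of_sq_le_sq _ (mul_nonneg (Real.sqrt_nonneg _) (Real.exp_pos _).le)
  rw [mul_pow, Real.sq_sqrt hD0, hD]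
  refine h3.trans ?_
  calc 4 * (Vd e u y * Vd (-e) u y)
      ≤ 4 * ((Real.exp (kH n * ‖y - x‖) * Vd e u x)
        * (Real.exp (kH n * ‖y - x‖) * Vd (-e) u x)) := by linarith
    _ = _ := by ring

/-- **(H3)** all derivatives of `u_t`, `t ⊥ ν(x)`, are bounded by `C √D(x) e^{K|y-x|}`. -/
theorem exists_tang_bound (n k : ℕ) : ∃ C : ℝ, 1 ≤ C ∧ ∀ u : (Fin n → ℝ) → ℝ, Sol u →
    ∀ (x t : Fin n → ℝ), ∑ i, t i ^ 2 ≤ 1 → ∑ i, t i * H283.nu u x i = 0 →
    ∀ l : List (Fin n), l.length ≤ k → ∀ y,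
      |ipd l (dd t u) y| ≤ C * (Real.sqrt (defi u x) * Real.exp (kH n * ‖y - x‖)) := by
  obtain ⟨A, hA0, hA⟩ := exists_pot_bound n k
  obtain ⟨C, hC1, hC⟩ := bootstrap n (kH_nonneg n) k A hA0
  refine ⟨C, hC1, fun u hu x t ht hte l hl y => ?_⟩
  obtain ⟨ha, hb⟩ := hA u hu
  refine hC _ (dd t u) ha (nice_dd (nice_u hu) t) (fun z => ?_) hb x _
    (fun z => abs_dd_tang_le hu x ht hte z) l hl y
  rw [H283.lap_dd hu]; ring

/-- `f` satisfies the Harnack inequality. -/
lemma harnack_psi (hu : Sol u) (x y : Fin n → ℝ) :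
    psi u y ≤ Real.exp (kH n * ‖y - x‖) * psi u x := by
  have h := harnack_Vd hu (e := 0) (by simp) x y
  have e : ∀ z, Vd 0 u z = (1 / (2 * Real.sqrt 2)) * psi u z := by
    intro z
    unfold Vd dd
    have := sqrt2_pos
    simp only [Pi.zero_apply, zero_mul, Finset.sum_const_zero, add_zero]
    field_simp
  rw [e, e] at h
  have h2 : (0:ℝ) < 1 / (2 * Real.sqrt 2) := by have := sqrt2_pos; positivity
  have h3 : (1 / (2 * Real.sqrt 2)) * psi u y
      ≤ (1 / (2 * Real.sqrt 2)) * (Real.exp (kH n * ‖y - x‖) * psi u x) := by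
    refine h.trans (le_of_eq ?_)
    unfold kH; ring
  exact le_of_mul_le_mul_left h3 h2

/-- All derivatives of `u` (of positive order) are bounded by `C f`. -/
theorem exists_psi_bound (n k : ℕ) : ∃ C : ℝ, 1 ≤ C ∧ ∀ u : (Fin n → ℝ) → ℝ, Sol u →
    ∀ (x : Fin n → ℝ) (i : Fin n), ∀ l : List (Fin n), l.length ≤ k → ∀ y,
      |ipd l (pd i u) y| ≤ C * (psi u x * Real.exp (kH n * ‖y - x‖)) := by
  obtain ⟨A, hA0, hA⟩ := exists_pot_bound n k
  obtain ⟨C, hC1, hC⟩ := bootstrap n (kH_nonneg n) k A hA0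
  refine ⟨C, hC1, fun u hu x i l hl y => ?_⟩
  obtain ⟨ha, hb⟩ := hA u hu
  have hn := nice_u hu
  refine hC _ (pd i u) ha (hn.pd i) (fun z => ?_) hb x _ (fun z => ?_) l hl y
  · have h1 := H283.lap_dd hu (Pi.single i 1) z
    have e : dd (Pi.single i 1) u = pd i u := by
      funext z
      unfold dd
      simp [Pi.single_apply]
    rw [e] at h1
    rw [h1]; ring
  · have h1 := hu.modica z
    have h2 := hu.psi_nonneg z
    have h3 : |pd i u z| ≤ psi u z := by
      apply abs_le_of_sq_le_sq _ h2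
      have h4 : pd i u z ^ 2 ≤ ∑ j, pd j u z ^ 2 :=
        Finset.single_le_sum (f := fun j => pd j u z ^ 2) (fun _ _ => sq_nonneg _)
          (Finset.mem_univ i)
      unfold psi at h2 ⊢
      nlinarith only [h1, h4, sq_nonneg (1 - u z ^ 2)]
    refine h3.trans ((harnack_psi hu x z).trans (le_of_eq (mul_comm _ _)))

/-! ### The gradient of the normal -/

/-- `w ∂_j ν_i = ∂_j u_t` with `t = P e_i`. -/
lemma wn_pd_nu (hu : Sol u) (h : 0 < gs u x) (i j : Fin n) :
    wn u x * pd j (SM.nu u i) x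
      = pd j (dd (fun l => (if l = i then 1 else 0) - SM.nu u i x * SM.nu u l x) u) x := by
  rw [SM.Sol.pd_nu hu h, SM.Sol.pd_wn' hu h, pd_dd hu.c2]
  simp only [sub_mul, Finset.sum_sub_distrib, ite_mul, one_mul, zero_mul, Finset.sum_ite_eq',
    Finset.mem_univ, if_true]
  congr 1
  rw [Finset.mul_sum]
  refine Finset.sum_congr rfl fun l _ => ?_
  ring

lemma tang_sq (h : 0 < gs u x) (i : Fin n) :
    ∑ l, ((if l = i then (1:ℝ) else 0) - SM.nu u i x * SM.nu u l x) ^ 2 ≤ 1 := by
  have e : ∀ l, ((if l = i then (1:ℝ) else 0) - SM.nu u i x * SM.nu u l x) ^ 2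
      = (if l = i then (1:ℝ) else 0) - 2 * ((if l = i then SM.nu u i x * SM.nu u l x else 0))
        + SM.nu u i x ^ 2 * SM.nu u l x ^ 2 := by
    intro l
    split_ifs <;> ring
  simp_rw [e, Finset.sum_add_distrib, Finset.sum_sub_distrib]
  rw [← Finset.mul_sum, ← Finset.mul_sum, sum_nu_sq h]
  simp only [Finset.sum_ite_eq', Finset.mem_univ, if_true]
  nlinarith only [sq_nonneg (SM.nu u i x)]

lemma tang_orth (h : 0 < gs u x) (i : Fin n) :
    ∑ l, ((if l = i then (1:ℝ) else 0) - SM.nu u i x * SM.nu u l x) * H283.nu u x l = 0 := by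
  have e : ∀ l, H283.nu u x l = SM.nu u l x := fun l => rfl
  simp_rw [e]
  have e2 : ∀ l, ((if l = i then (1:ℝ) else 0) - SM.nu u i x * SM.nu u l x) * SM.nu u l x
      = (if l = i then SM.nu u l x else 0) - SM.nu u i x * SM.nu u l x ^ 2 := by
    intro l
    split_ifs <;> ring
  simp_rw [e2, Finset.sum_sub_distrib]
  rw [← Finset.mul_sum, sum_nu_sq h]
  simp only [Finset.sum_ite_eq', Finset.mem_univ, if_true]
  ring

/-- **(H3)** `|∇ν| ≤ C √D/w`. -/
theorem exists_nu_bound (n : ℕ) : ∃ C : ℝ, 1 ≤ C ∧ ∀ u : (Fin n → ℝ) → ℝ, Sol u →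
    ∀ x : Fin n → ℝ, 0 < gs u x → ∀ i j : Fin n,
      wn u x * |pd j (SM.nu u i) x| ≤ C * Real.sqrt (defi u x) := by
  obtain ⟨C, hC1, hC⟩ := exists_tang_bound n 1
  refine ⟨C, hC1, fun u hu x h i j => ?_⟩
  have h1 := hC u hu x _ (tang_sq h i) (tang_orth h i) [j] (by simp) x
  rw [sub_self, norm_zero, mul_zero, Real.exp_zero, mul_one] at h1
  have h2 : ipd [j] (dd (fun l => (if l = i then 1 else 0) - SM.nu u i x * SM.nu u l x) u) x
      = wn u x * pd j (SM.nu u i) x := by
    rw [wn_pd_nu hu h]; rfl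
  rw [h2, abs_mul, abs_of_nonneg (wn_nonneg u x)] at h1
  exact h1

/-- **(H3)** `w² |H| ≤ C D`. -/
theorem wn_sq_mc_le (hu : Sol u) (h : 0 < gs u x) :
    wn u x ^ 2 * |mc u x| ≤ n * cH n 2 * defi u x := by
  have h1 := SM.Sol.dnu_defi hu h
  have h2 : |∑ i, SM.nu u i x * pd i (defi u) x| ≤ n * (2 * cH n 2 * defi u x) := by
    refine (Finset.abs_sum_le_sum_abs _ _).trans ?_
    have : ∀ i ∈ (Finset.univ : Finset (Fin n)), |SM.nu u i x * pd i (defi u) x|
        ≤ 2 * cH n 2 * defi u x := by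
      intro i _
      rw [abs_mul]
      have h3 : |SM.nu u i x| ≤ 1 := by
        apply abs_le_of_sq_le_sq _ (by norm_num)
        rw [one_pow, ← sum_nu_sq h]
        exact Finset.single_le_sum (f := fun i => SM.nu u i x ^ 2) (fun _ _ => sq_nonneg _)
          (Finset.mem_univ i)
      have h4 := abs_pd_defi_le hu i x
      calc |SM.nu u i x| * |pd i (defi u) x| ≤ 1 * (2 * cH n 2 * defi u x) :=
            mul_le_mul h3 h4 (abs_nonneg _) zero_le_one
        _ = _ := one_mul _
    refine (Finset.sum_le_sum this).trans (le_of_eq ?_)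
    rw [Finset.sum_const, Finset.card_univ, Fintype.card_fin, nsmul_eq_mul]
  rw [h1, abs_mul, abs_mul, abs_of_pos (by norm_num : (0:ℝ) < 2), abs_of_nonneg (sq_nonneg _)] at h2
  linarith

/-- **(H3)** `w² |∇ν|² ≤ C D`, hence `w² |A|² ≤ C D`. -/
theorem exists_dn_bound (n : ℕ) : ∃ C : ℝ, 1 ≤ C ∧ ∀ u : (Fin n → ℝ) → ℝ, Sol u →
    ∀ x : Fin n → ℝ, 0 < gs u x → wn u x ^ 2 * dn u x ≤ C * defi u x := by
  obtain ⟨C, hC1, hC⟩ := exists_nu_bound n
  refine ⟨n ^ 2 * C ^ 2 + 1, by nlinarith only [sq_nonneg ((n:ℝ) * C)], fun u hu x h => ?_⟩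
  have hD := hu.defi_nonneg x
  have h1 : ∀ i j, wn u x ^ 2 * pd j (SM.nu u i) x ^ 2 ≤ C ^ 2 * defi u x := by
    intro i j
    have h2 := hC u hu x h i j
    have h3 : (wn u x * |pd j (SM.nu u i) x|) ^ 2 ≤ (C * Real.sqrt (defi u x)) ^ 2 :=
      pow_le_pow_left₀ (mul_nonneg (wn_nonneg u x) (abs_nonneg _)) h2 2
    rw [mul_pow, mul_pow, sq_abs, Real.sq_sqrt hD] at h3
    exact h3
  unfold dn
  rw [Finset.mul_sum]
  have h4 : ∀ i ∈ (Finset.univ : Finset (Fin n)), wn u x ^ 2 * ∑ j, pd j (SM.nu u i) x ^ 2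
      ≤ n * (C ^ 2 * defi u x) := by
    intro i _
    rw [Finset.mul_sum]
    refine (Finset.sum_le_sum fun j _ => h1 i j).trans (le_of_eq ?_)
    rw [Finset.sum_const, Finset.card_univ, Fintype.card_fin, nsmul_eq_mul]
  refine (Finset.sum_le_sum h4).trans ?_
  rw [Finset.sum_const, Finset.card_univ, Fintype.card_fin, nsmul_eq_mul]
  nlinarith only [hD]

end Vale.Agent.P134.H283
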