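import Vale.Agent.P134.H283.Har2
import Vale.Agent.P134.LI.SDdef
import Vale.Agent.P134.R3.Iface

set_option linter.all false

/-! `|∂² q| ≤ C q` everywhere; `StHar1` and `HARN`. -/

namespace Vale.Agent.P134.H283

open Vale.Agent.P134 Vale.Agent.P134.SM Vale.Agent.P134.LI MeasureTheory Filter Topology

variable {u F : R3 → ℝ} {x y z e t v : R3} {i j k : Fin 3}

lemma pd_phi_cont (hu : Sol u) (hlt : ∀ x, |u x| < 1) (k : Fin 3) :
    Differentiable ℝ (pd k (phi u)) := by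
  intro x
  have e0 : pd k (phi u) = fun y => pd k u y * (ff u y)⁻¹ := by
    funext y; rw [pd_phi hu hlt]; rfl
  rw [e0]
  exact (((nice_u hu).pd k).1 x).fun_mul (((ff_nice hu).1 x).fun_inv (ff_pos hlt x).ne')

lemma abs_pd_phi_le (hu : Sol u) (hlt : ∀ x, |u x| < 1) (k : Fin 3) (x : R3) :
    |pd k (phi u) x| ≤ 1 := by
  have hf := ff_pos hlt x
  rw [pd_phi hu hlt, abs_div, abs_of_pos hf, div_le_one hf]
  exact abs_pd_le_ff hu k x

/-- `∂_k q = ∂_k D/f² + 2√2 u φ_k q`. -/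
lemma pd_qq (hu : Sol u) (hlt : ∀ x, |u x| < 1) (k : Fin 3) (x : R3) :
    pd k (qq u) x = pd k (defi u) x / ff u x ^ 2
      + 2 * Real.sqrt 2 * (u x * (pd k (phi u) x * qq u x)) := by
  have hf := ff_pos hlt x
  have hf' := hf.ne'
  have d1 := (nice_defi hu).1 x
  have d2 := (ff_nice hu).1 x
  have hq : qq u x = defi u x / ff u x ^ 2 := by rw [qq_eq hu hlt]
  rw [hq, pd_phi hu hlt, qq_eq hu hlt,
    pd_div (g := fun y => ff u y ^ 2) d1 (d2.fun_pow 2) (pow_ne_zero 2 hf')]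
  have : pd k (fun y => ff u y ^ 2) x = 2 * ff u x * pd k (ff u) x := pd_sq d2
  rw [this, pd_ff hu]
  field_simp
  ring

/-- **`|∂² q| ≤ C q` everywhere.** -/
theorem exists_qq2_bound : ∃ C : ℝ, 0 < C ∧ ∀ u : R3 → ℝ, Sol u → (∀ x, |u x| < 1) →
    ∀ (j k : Fin 3) (x : R3), |pd j (pd k (qq u)) x| ≤ C * qq u x := by
  obtain ⟨C1, hC10, hC1⟩ := exists_defi2_bound 3
  obtain ⟨C2, hC20, hC2⟩ := exists_geom_bound
  have hc := cH_pos 3 (K := 2) (by norm_num)
  have hQ := cQ_pos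
  have hs := sqrt2_pos
  have hs2 : Real.sqrt 2 ≤ 2 := by have := sqrt2_sq; nlinarith
  refine ⟨C1 + 2 * (2 * cH 3 2) * 2 + 4 * (1 + C2 + cQ), by positivity,
    fun u hu hlt j k x => ?_⟩
  have hf := ff_pos hlt x
  have hf' := hf.ne'
  have hq0 := qq_nonneg hu hlt x
  have hq1 := qq_le_one u x
  have hD := defi_eq_qq hu hlt x
  have dD : DifferentiableAt ℝ (pd k (defi u)) x := ((nice_defi hu).pd k).1 x
  have dff : DifferentiableAt ℝ (ff u) x := (ff_nice hu).1 x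
  have dq : DifferentiableAt ℝ (qq u) x := qq_differentiable hu hlt x
  have du : DifferentiableAt ℝ u x := (nice_u hu).1 x
  have dp : DifferentiableAt ℝ (pd k (phi u)) x := pd_phi_cont hu hlt k x
  have e0 : pd k (qq u) = fun y => pd k (defi u) y / ff u y ^ 2
      + 2 * Real.sqrt 2 * (u y * (pd k (phi u) y * qq u y)) := by
    funext y; exact pd_qq hu hlt k y
  have dA : DifferentiableAt ℝ (fun y => pd k (defi u) y / ff u y ^ 2) x := by
    simp_rw [div_eq_mul_inv]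
    exact dD.fun_mul ((dff.fun_pow 2).fun_inv (pow_ne_zero 2 hf'))
  have dB1 : DifferentiableAt ℝ (fun y => pd k (phi u) y * qq u y) x := dp.fun_mul dq
  have dB2 : DifferentiableAt ℝ (fun y => u y * (pd k (phi u) y * qq u y)) x := du.fun_mul dB1
  have dB : DifferentiableAt ℝ (fun y => 2 * Real.sqrt 2 * (u y * (pd k (phi u) y * qq u y))) x :=
    dB2.const_mul _
  have e1 : pd j (fun y => pd k (defi u) y / ff u y ^ 2) x
      = pd j (pd k (defi u)) x / ff u x ^ 2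
        + 2 * Real.sqrt 2 * (u x * (pd j (phi u) x * (pd k (defi u) x / ff u x ^ 2))) := by
    rw [pd_div (g := fun y => ff u y ^ 2) dD (dff.fun_pow 2) (pow_ne_zero 2 hf')]
    have : pd j (fun y => ff u y ^ 2) x = 2 * ff u x * pd j (ff u) x := pd_sq dff
    rw [this, pd_ff hu, pd_phi hu hlt]
    field_simp
    ring
  have e2 : pd j (fun y => 2 * Real.sqrt 2 * (u y * (pd k (phi u) y * qq u y))) x
      = 2 * Real.sqrt 2 * (u x * (pd k (phi u) x * pd j (qq u) x + qq u x * pd j (pd k (phi u)) x)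
        + pd k (phi u) x * qq u x * pd j u x) := by
    rw [pd_mul (f := fun _ => 2 * Real.sqrt 2) (by fun_prop) dB2, pd_const, pd_mul du dB1,
      pd_mul dp dq]
    ring
  rw [e0, pd_add dA dB, e1, e2]
  have b1 := hC1 u hu j k x
  have b2 := abs_pd_defi_le hu k x
  have b3 := abs_pd_qq_le hu hlt j x
  have b4 := (hC2 u hu hlt x).2.2.2 k j
  have b5 := abs_pd_phi_le hu hlt k x
  have b6 := abs_pd_phi_le hu hlt j x
  have b7 : |u x| ≤ 1 := hu.bd x
  have b8 := abs_pd_u_le hu j x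
  have hss : Real.sqrt (qq u x) ≤ 1 := by
    rw [show (1:ℝ) = Real.sqrt 1 by simp]
    exact Real.sqrt_le_sqrt hq1
  have b4' : |pd j (pd k (phi u)) x| ≤ C2 := by
    refine b4.trans ?_
    exact mul_le_of_le_one_right (by linarith) hss
  have t1 : |pd j (pd k (defi u)) x / ff u x ^ 2| ≤ C1 * qq u x := by
    rw [abs_div, abs_of_pos (by positivity : 0 < ff u x ^ 2), div_le_iff₀ (by positivity)]
    rw [hD] at b1
    linarith
  have t2' : |pd k (defi u) x / ff u x ^ 2| ≤ 2 * cH 3 2 * qq u x := by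
    rw [abs_div, abs_of_pos (by positivity : 0 < ff u x ^ 2), div_le_iff₀ (by positivity)]
    rw [hD] at b2
    linarith
  have t2 : |2 * Real.sqrt 2 * (u x * (pd j (phi u) x * (pd k (defi u) x / ff u x ^ 2)))|
      ≤ 4 * (2 * cH 3 2 * qq u x) := by
    rw [abs_mul, abs_mul (u x), abs_mul (pd j (phi u) x),
      abs_of_pos (by positivity : 0 < 2 * Real.sqrt 2)]
    have s1 : |pd j (phi u) x| * |pd k (defi u) x / ff u x ^ 2| ≤ 1 * (2 * cH 3 2 * qq u x) :=
      mul_le_mul b6 t2' (abs_nonneg _) zero_le_one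
    have s2 : |u x| * (|pd j (phi u) x| * |pd k (defi u) x / ff u x ^ 2|)
        ≤ 1 * (1 * (2 * cH 3 2 * qq u x)) :=
      mul_le_mul b7 s1 (by positivity) zero_le_one
    have s3 : 2 * Real.sqrt 2 ≤ 4 := by linarith
    calc _ ≤ 4 * (1 * (1 * (2 * cH 3 2 * qq u x))) :=
          mul_le_mul s3 s2 (by positivity) (by norm_num)
      _ = _ := by ring
  have t3 : |u x * (pd k (phi u) x * pd j (qq u) x + qq u x * pd j (pd k (phi u)) x)
        + pd k (phi u) x * qq u x * pd j u x| ≤ (cQ + C2 + 1) * qq u x := by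
    have s1 : |pd k (phi u) x * pd j (qq u) x| ≤ cQ * qq u x := by
      rw [abs_mul]
      calc _ ≤ 1 * (cQ * qq u x) := mul_le_mul b5 b3 (abs_nonneg _) zero_le_one
        _ = _ := one_mul _
    have s2 : |qq u x * pd j (pd k (phi u)) x| ≤ C2 * qq u x := by
      rw [abs_mul, abs_of_nonneg hq0, mul_comm]
      exact mul_le_mul_of_nonneg_right b4' hq0
    have s3 : |u x * (pd k (phi u) x * pd j (qq u) x + qq u x * pd j (pd k (phi u)) x)|
        ≤ cQ * qq u x + C2 * qq u x := by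
      rw [abs_mul]
      calc _ ≤ 1 * |pd k (phi u) x * pd j (qq u) x + qq u x * pd j (pd k (phi u)) x| :=
            mul_le_mul_of_nonneg_right b7 (abs_nonneg _)
        _ = |pd k (phi u) x * pd j (qq u) x + qq u x * pd j (pd k (phi u)) x| := one_mul _
        _ ≤ _ := (abs_add_le _ _).trans (add_le_add s1 s2)
    have s4 : |pd k (phi u) x * qq u x * pd j u x| ≤ qq u x := by
      rw [abs_mul, abs_mul, abs_of_nonneg hq0]
      have : |pd k (phi u) x| * |pd j u x| ≤ 1 * 1 := mul_le_mul b5 b8 (abs_nonneg _) zero_le_one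
      nlinarith only [this, hq0]
    refine (abs_add_le _ _).trans ?_
    linarith
  have t4 : |2 * Real.sqrt 2 * (u x * (pd k (phi u) x * pd j (qq u) x
      + qq u x * pd j (pd k (phi u)) x) + pd k (phi u) x * qq u x * pd j u x)|
      ≤ 4 * ((cQ + C2 + 1) * qq u x) := by
    rw [abs_mul, abs_of_pos (by positivity : 0 < 2 * Real.sqrt 2)]
    exact mul_le_mul (by linarith) t3 (abs_nonneg _) (by norm_num)
  refine (abs_add_le _ _).trans ?_
  have t5 := (abs_add_le (pd j (pd k (defi u)) x / ff u x ^ 2)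
    (2 * Real.sqrt 2 * (u x * (pd j (phi u) x * (pd k (defi u) x / ff u x ^ 2)))))
  nlinarith only [t1, t2, t4, t5]

/-- `|hh| ≤ C q`, `|A|² ≤ C q` when `q ≤ 1/2` (all levels). -/
theorem har1 : ∃ C : ℝ, 0 < C ∧ ∀ u : R3 → ℝ, Sol u → (∀ x, |u x| < 1) →
    ∀ x, qq u x ≤ 1 / 2 → |hh u x| ≤ C * qq u x ∧ a2 u x ≤ C * qq u x ∧
      |kk u x| ≤ C * qq u x ∧
      (∀ i j, |pd j (fun y => nn u y i) x| ≤ C * Real.sqrt (qq u x)) := by
  obtain ⟨C2, hC20, hC2⟩ := exists_geom_bound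
  refine ⟨2 * C2 + 4 * C2 ^ 2, by positivity, fun u hu hlt x hq => ?_⟩
  obtain ⟨h1, h2, h3, h4⟩ := hC2 u hu hlt x
  have hq0 := qq_nonneg hu hlt x
  have hr2 := rr_sq u x
  have hr0 := rr_nonneg u x
  have ha0 : 0 ≤ a2 u x := Finset.sum_nonneg fun _ _ => Finset.sum_nonneg fun _ _ => sq_nonneg _
  have hh1 : |hh u x| ≤ 2 * C2 * qq u x := by
    rw [hr2] at h1
    nlinarith only [h1, hq, abs_nonneg (hh u x)]
  have hh2 : a2 u x ≤ 2 * C2 * qq u x := by
    rw [hr2] at h2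
    nlinarith only [h2, hq, ha0]
  have hsq := Real.sqrt_nonneg (qq u x)
  have hC22 : 0 ≤ 4 * C2 ^ 2 * qq u x := by positivity
  have hr1 : 1 / 2 ≤ rr u x := by nlinarith only [hr2, hr0, hq]
  refine ⟨by nlinarith only [hh1, hC22], by nlinarith only [hh2, hC22], ?_, fun i j => ?_⟩
  · unfold kk
    have h5 : hh u x ^ 2 ≤ 4 * C2 ^ 2 * qq u x := by
      have h6 : hh u x ^ 2 ≤ (2 * C2 * qq u x) ^ 2 := by
        rw [← sq_abs]; exact pow_le_pow_left₀ (abs_nonneg _) hh1 2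
      have h7 : (qq u x) ^ 2 ≤ qq u x := by nlinarith only [hq0, hq]
      nlinarith only [h6, mul_le_mul_of_nonneg_left h7 (by positivity : 0 ≤ 4 * C2 ^ 2)]
    rw [abs_le]
    constructor <;> nlinarith only [h5, hh2, ha0, sq_nonneg (hh u x), hC22]
  · have h5 := h3 i j
    have h6 := abs_nonneg (pd j (fun y => nn u y i) x)
    nlinarith only [h5, h6, hr1, hsq, mul_nonneg (sq_nonneg C2) hsq, mul_le_mul_of_nonneg_right hr1 h6]

theorem stHar1 : StHar1 := by
  intro s hs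
  obtain ⟨C, hC0, hC⟩ := har1
  exact ⟨C, hC0, fun u hu hlt x _ hq => ⟨(hC u hu hlt x hq).1, (hC u hu hlt x hq).2.1⟩⟩

/-- `|D²φ|² ≤ C q`, `|∇q|² ≤ (C q)²`, everywhere. -/
theorem exists_hs_bound : ∃ C : ℝ, 0 < C ∧ ∀ u : R3 → ℝ, Sol u → (∀ x, |u x| < 1) → ∀ x : R3,
    hs (phi u) x ≤ C * qq u x ∧ gs (qq u) x ≤ (C * qq u x) ^ 2 := by
  obtain ⟨C2, hC20, hC2⟩ := exists_geom_bound
  have hQ := cQ_pos
  refine ⟨9 * C2 ^ 2 + 2 * cQ, by positivity, fun u hu hlt x => ?_⟩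
  have hq0 := qq_nonneg hu hlt x
  have h4 := (hC2 u hu hlt x).2.2.2
  constructor
  · unfold hs
    have h5 : ∀ i j : Fin 3, pd i (pd j (phi u)) x ^ 2 ≤ C2 ^ 2 * qq u x := by
      intro i j
      have h6 := pow_le_pow_left₀ (abs_nonneg _) (h4 j i) 2
      rw [sq_abs, mul_pow, Real.sq_sqrt hq0] at h6
      exact h6
    have h6 : ∑ i : Fin 3, ∑ j : Fin 3, pd i (pd j (phi u)) x ^ 2
        ≤ ∑ i : Fin 3, ∑ j : Fin 3, C2 ^ 2 * qq u x :=
      Finset.sum_le_sum fun i _ => Finset.sum_le_sum fun j _ => h5 i j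
    have h7 : ∑ i : Fin 3, ∑ j : Fin 3, C2 ^ 2 * qq u x = 9 * (C2 ^ 2 * qq u x) := by
      simp only [Finset.sum_const, Finset.card_univ, Fintype.card_fin, nsmul_eq_mul]
      push_cast; ring
    rw [h7] at h6
    nlinarith only [h6, mul_nonneg hQ.le hq0]
  · unfold gs
    have h5 : ∀ i ∈ (Finset.univ : Finset (Fin 3)), pd i (qq u) x ^ 2 ≤ (cQ * qq u x) ^ 2 := by
      intro i _
      have h6 := pow_le_pow_left₀ (abs_nonneg _) (abs_pd_qq_le hu hlt i x) 2
      rwa [sq_abs] at h6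
    have h6 := Finset.sum_le_sum h5
    rw [Finset.sum_const, Finset.card_univ, Fintype.card_fin, nsmul_eq_mul] at h6
    have h7 : 0 ≤ cQ * qq u x := by positivity
    have h8 : 2 * (cQ * qq u x) ≤ (9 * C2 ^ 2 + 2 * cQ) * qq u x := by
      nlinarith only [mul_nonneg (sq_nonneg C2) hq0]
    have h9 := pow_le_pow_left₀ (by positivity) h8 2
    push_cast at h6
    nlinarith only [h6, h9, sq_nonneg (cQ * qq u x)]

theorem harn : Vale.Agent.P134.R3.HARN := by
  intro S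
  obtain ⟨C, hC0, hC⟩ := exists_hs_bound
  exact ⟨C, hC0, fun u hu hlt x _ => hC u hu hlt x⟩

end Vale.Agent.P134.H283
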