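import Vale.Agent.P134.H283.Harnack

set_option linter.all false

/-! Lower bounds with the sharp exponential rate `√2` (Yukawa), from the Gaussian averages. -/

namespace Vale.Agent.P134.H283

open Vale.Agent.P134 Vale.Agent.P134.SM MeasureTheory Filter Topology

variable {n m : ℕ} {f g u V h : (Fin n → ℝ) → ℝ} {x y z e t : Fin n → ℝ} {i j q : Fin n}
  {b K M r C : ℝ}

lemma sum_mul_le_eno (a b : Fin n → ℝ) : ∑ i, a i * b i ≤ eno a * eno b := by
  have h := Finset.sum_mul_sq_le_sq_mul_sq Finset.univ a b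
  have ha := eno_sq a
  have hb := eno_sq b
  unfold esq at ha hb
  rw [← ha, ← hb, ← mul_pow] at h
  exact (le_abs_self _).trans (abs_le_of_sq_le_sq h (mul_nonneg (eno_nonneg a) (eno_nonneg b)))

lemma eno_add_le (a b : Fin n → ℝ) : eno (a + b) ≤ eno a + eno b := by
  have h1 : esq (a + b) = esq a + 2 * ∑ i, a i * b i + esq b := by
    unfold esq
    rw [Finset.mul_sum, ← Finset.sum_add_distrib, ← Finset.sum_add_distrib]
    refine Finset.sum_congr rfl fun i _ => ?_
    simp only [Pi.add_apply]; ring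
  have h2 := sum_mul_le_eno a b
  have h3 : eno (a + b) ^ 2 ≤ (eno a + eno b) ^ 2 := by
    rw [eno_sq, h1, ← eno_sq a, ← eno_sq b]
    nlinarith only [h2]
  exact le_of_sq_le_sq h3 (add_nonneg (eno_nonneg a) (eno_nonneg b))
where
  le_of_sq_le_sq {a b : ℝ} (h : a ^ 2 ≤ b ^ 2) (hb : 0 ≤ b) : a ≤ b :=
    (le_abs_self a).trans (abs_le_of_sq_le_sq h hb)

lemma eno_le_norm (z : Fin n → ℝ) : eno z ≤ (n + 1) * ‖z‖ := by
  have h1 : esq z ≤ n * ‖z‖ ^ 2 := by
    unfold esq
    have : ∀ i ∈ (Finset.univ : Finset (Fin n)), z i ^ 2 ≤ ‖z‖ ^ 2 := by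
      intro i _
      have := norm_le_pi_norm z i
      rw [← sq_abs]
      exact pow_le_pow_left₀ (abs_nonneg _) this 2
    refine (Finset.sum_le_sum this).trans (le_of_eq ?_)
    rw [Finset.sum_const, Finset.card_univ, Fintype.card_fin, nsmul_eq_mul]
  have h2 : eno z ^ 2 ≤ ((n + 1) * ‖z‖) ^ 2 := by
    rw [eno_sq]
    refine h1.trans ?_
    rw [mul_pow]
    apply mul_le_mul_of_nonneg_right _ (sq_nonneg _)
    have : (0:ℝ) ≤ n := Nat.cast_nonneg n
    nlinarith only [this]
  exact (le_abs_self _).trans (abs_le_of_sq_le_sq h2 (by positivity))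

lemma esq_smul (r : ℝ) (z : Fin n → ℝ) : esq (r • z) = r ^ 2 * esq z := by
  unfold esq
  rw [Finset.mul_sum]
  refine Finset.sum_congr rfl fun i _ => ?_
  simp only [Pi.smul_apply, smul_eq_mul]; ring

/-- Lower bound of the Gaussian average by the value at an arbitrary point. -/
theorem avg_ge (hV : Nice V) (hV0 : ∀ x, 0 ≤ V x) (hC : 0 ≤ C)
    (hH : ∀ z, V y ≤ Real.exp (C * ‖y - z‖) * V z) (x : Fin n → ℝ) (hr : 0 < r) :
    Real.exp (-C) * V y * Real.exp (-((eno (y - x) + (n + 1)) ^ 2 / (2 * r ^ 2)))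
      * (2 * r⁻¹) ^ n ≤ avg V x r := by
  set a : ℝ := eno (y - x) + (n + 1) with ha
  set c : ℝ := Real.exp (-C) * V y * Real.exp (-(a ^ 2 / (2 * r ^ 2))) with hc
  set S : Set (Fin n → ℝ) := Metric.closedBall (r⁻¹ • (y - x)) r⁻¹ with hS
  have hr1 : 0 ≤ r⁻¹ := inv_nonneg.mpr hr.le
  have hvol : (volume S).toReal = (2 * r⁻¹) ^ n := by
    rw [hS, Real.volume_pi_closedBall _ hr1, Fintype.card_fin,
      ENNReal.toReal_ofReal (by positivity)]
  have hSm : MeasurableSet S := Metric.isClosed_closedBall.measurableSet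
  have hint : ∫ w, S.indicator (fun _ => c) w = (2 * r⁻¹) ^ n * c := by
    rw [integral_indicator_const _ hSm, smul_eq_mul, Measure.real, hvol]
  have hfin : volume S < ⊤ := by
    rw [hS, Real.volume_pi_closedBall _ hr1]; exact ENNReal.ofReal_lt_top
  have hle : ∀ w, S.indicator (fun _ => c) w ≤ V (x + r • w) * gam (1 / 2) w := by
    intro w
    by_cases hw : w ∈ S
    · rw [Set.indicator_of_mem hw]
      have h1 : ‖y - (x + r • w)‖ ≤ 1 := by
        have e : y - (x + r • w) = r • (r⁻¹ • (y - x) - w) := by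
          rw [smul_sub, smul_smul, mul_inv_cancel₀ hr.ne', one_smul]; abel
        rw [e, norm_smul, Real.norm_eq_abs, abs_of_pos hr]
        have h2 : ‖r⁻¹ • (y - x) - w‖ ≤ r⁻¹ := by
          rw [← dist_eq_norm, dist_comm]; exact hw
        calc r * ‖r⁻¹ • (y - x) - w‖ ≤ r * r⁻¹ := mul_le_mul_of_nonneg_left h2 hr.le
          _ = 1 := mul_inv_cancel₀ hr.ne'
      have h2 : Real.exp (-C) * V y ≤ V (x + r • w) := by
        have h3 := hH (x + r • w)
        have h4 : Real.exp (C * ‖y - (x + r • w)‖) ≤ Real.exp C :=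
          Real.exp_le_exp.mpr (mul_le_of_le_one_right hC h1)
        have h5 := h3.trans (mul_le_mul_of_nonneg_right h4 (hV0 _))
        calc Real.exp (-C) * V y ≤ Real.exp (-C) * (Real.exp C * V (x + r • w)) :=
              mul_le_mul_of_nonneg_left h5 (Real.exp_pos _).le
          _ = V (x + r • w) := by rw [← mul_assoc, ← Real.exp_add]; simp
      have h3 : Real.exp (-(a ^ 2 / (2 * r ^ 2))) ≤ gam (1 / 2) w := by
        unfold gam
        apply Real.exp_le_exp.mpr
        have h4 : eno (r • w) ≤ a := by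
          have e : r • w = (y - x) + ((x + r • w) - y) := by abel
          rw [e]
          refine (eno_add_le _ _).trans ?_
          rw [ha]
          have h5 := eno_le_norm ((x + r • w) - y)
          rw [norm_sub_rev] at h5
          have h6 : ((n:ℝ) + 1) * ‖y - (x + r • w)‖ ≤ n + 1 := by
            have : (0:ℝ) ≤ n + 1 := by positivity
            nlinarith only [this, h1]
          linarith
        have h5 : r ^ 2 * esq w ≤ a ^ 2 := by
          rw [← esq_smul, ← eno_sq]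
          exact pow_le_pow_left₀ (eno_nonneg _) h4 2
        have h6 : esq w ≤ a ^ 2 / r ^ 2 := by
          rw [le_div_iff₀ (by positivity)]; linarith
        have h7 : ∑ i, w i ^ 2 = esq w := rfl
        rw [h7]
        have h8 : a ^ 2 / (2 * r ^ 2) = 1 / 2 * (a ^ 2 / r ^ 2) := by field_simp
        rw [h8]; linarith
      rw [hc]
      exact mul_le_mul h2 h3 (Real.exp_pos _).le (hV0 _)
    · rw [Set.indicator_of_notMem hw]
      exact mul_nonneg (hV0 _) (gam_pos _ _).le
  have hmain : ∫ w, S.indicator (fun _ => c) w ≤ avg V x r := by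
    unfold avg
    refine integral_mono ?_ (avg_integrable hV x r) hle
    exact (integrable_indicator_iff hSm).mpr (integrableOn_const (by exact hfin.ne))
  rw [hint] at hmain
  calc c * (2 * r⁻¹) ^ n = (2 * r⁻¹) ^ n * c := by ring
    _ ≤ avg V x r := hmain

/-- The constant of the Yukawa bound. -/
noncomputable def cY (n m : ℕ) : ℝ :=
  Real.exp (-(n * cH n 2)) * Real.exp (-(Real.sqrt 2 * (n + 1))) / (gmass n * (n + 1) ^ m)

lemma cY_pos (n m : ℕ) : 0 < cY n m := by
  unfold cY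
  have := gmass_pos (n := n)
  positivity

/-- **Yukawa lower bound** (H2), all dimensions: `V(x) ≥ c e^{-√2 L} (1+L)^{-m} V(y)` with
`L = |x-y|` (Euclidean) and `2 m ≥ n`. -/
theorem yukawa (hnm : n ≤ 2 * m) (hV : Nice V) (hV0 : ∀ x, 0 ≤ V x)
    (hL : ∀ x, |lap V x| ≤ 2 * V x) (x y : Fin n → ℝ) :
    cY n m * (Real.exp (-(Real.sqrt 2 * eno (y - x))) / (1 + eno (y - x)) ^ m) * V y ≤ V x := by
  have hg := gmass_pos (n := n)
  have h2 := sqrt2_pos
  have hs := sqrt2_sq
  have hs1 : (1:ℝ) ≤ Real.sqrt 2 := by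
    rw [show (1:ℝ) = Real.sqrt 1 by simp]
    exact Real.sqrt_le_sqrt (by norm_num)
  set L := eno (y - x) with hLdef
  have hL0 : 0 ≤ L := eno_nonneg _
  set a : ℝ := L + (n + 1) with ha
  have ha1 : 1 ≤ a := by rw [ha]; have : (0:ℝ) ≤ n := Nat.cast_nonneg n; linarith
  have ha0 : 0 < a := by linarith
  set r : ℝ := Real.sqrt (a / Real.sqrt 2) with hr
  have hr2 : r ^ 2 = a / Real.sqrt 2 := Real.sq_sqrt (by positivity)
  have hr0 : 0 < r := Real.sqrt_pos.mpr (by positivity)
  set C : ℝ := n * cH n 2 with hC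
  have hC0 : 0 ≤ C := by
    have := cH_pos n (K := 2) (by norm_num); rw [hC]; positivity
  have hH : ∀ z, V y ≤ Real.exp (C * ‖y - z‖) * V z := fun z =>
    harnack hV (by norm_num) hV0 hL z y
  have h1 := avg_ge hV hV0 hC0 hH x hr0
  have h3 := avg_le hV (K := 2) (fun y => (le_abs_self _).trans (hL y)) x hr0.le
  rw [← hLdef, ← ha] at h1
  -- exponents
  have e1 : (2:ℝ) * r ^ 2 / 2 = a / Real.sqrt 2 := by rw [hr2]; ring
  have e2 : a ^ 2 / (2 * r ^ 2) = a / Real.sqrt 2 := by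
    rw [hr2]
    rw [div_eq_div_iff (by positivity) (by positivity)]
    field_simp
    rw [hs]
  rw [e1] at h3
  rw [e2] at h1
  have e3 : a / Real.sqrt 2 + a / Real.sqrt 2 = Real.sqrt 2 * a := by
    field_simp
    rw [hs]; ring
  -- power of r
  have hra : r ≤ Real.sqrt a := by
    rw [hr]
    apply Real.sqrt_le_sqrt
    exact div_le_self ha0.le hs1
  have hsa : 1 ≤ Real.sqrt a := by
    rw [show (1:ℝ) = Real.sqrt 1 by simp]
    exact Real.sqrt_le_sqrt ha1
  have hrn : r ^ n ≤ a ^ m := by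
    calc r ^ n ≤ Real.sqrt a ^ n := pow_le_pow_left₀ hr0.le hra n
      _ ≤ Real.sqrt a ^ (2 * m) := pow_le_pow_right₀ hsa hnm
      _ = a ^ m := by rw [pow_mul, Real.sq_sqrt ha0.le]
  have ham : a ^ m ≤ ((n + 1) * (1 + L)) ^ m := by
    apply pow_le_pow_left₀ ha0.le
    rw [ha]
    have : (0:ℝ) ≤ n := Nat.cast_nonneg n
    nlinarith only [this, hL0]
  have hpow : (((n:ℝ) + 1) ^ m * (1 + L) ^ m)⁻¹ ≤ (2 * r⁻¹) ^ n := by
    rw [← mul_pow]
    have h5 : (r ^ n)⁻¹ ≤ (2 * r⁻¹) ^ n := by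
      rw [mul_pow, inv_pow]
      have : (1:ℝ) ≤ 2 ^ n := one_le_pow₀ (by norm_num)
      have h6 : 0 ≤ (r ^ n)⁻¹ := by positivity
      nlinarith only [this, h6]
    exact (inv_anti₀ (by positivity) (hrn.trans ham)).trans h5
  have hVy := hV0 y
  -- chain
  have h4 : Real.exp (-C) * V y * Real.exp (-(a / Real.sqrt 2))
      * (((n:ℝ) + 1) ^ m * (1 + L) ^ m)⁻¹ ≤ Real.exp (a / Real.sqrt 2) * (V x * gmass n) := by
    refine le_trans ?_ (h1.trans h3)
    exact mul_le_mul_of_nonneg_left hpow (by positivity)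
  have h5 : cY n m * (Real.exp (-(Real.sqrt 2 * L)) / (1 + L) ^ m) * V y
      = (Real.exp (-(a / Real.sqrt 2)) * (Real.exp (-C) * V y * Real.exp (-(a / Real.sqrt 2))
      * (((n:ℝ) + 1) ^ m * (1 + L) ^ m)⁻¹)) / gmass n := by
    have e4 : Real.exp (-(Real.sqrt 2 * (n + 1))) * Real.exp (-(Real.sqrt 2 * L))
        = Real.exp (-(a / Real.sqrt 2)) * Real.exp (-(a / Real.sqrt 2)) := by
      rw [← Real.exp_add, ← Real.exp_add]
      congr 1
      linarith [e3, show Real.sqrt 2 * a = Real.sqrt 2 * L + Real.sqrt 2 * (n + 1) by rw [ha]; ring]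
    unfold cY
    rw [← hC]
    have hg' := hg.ne'
    have : (1 + L) ^ m ≠ 0 := by positivity
    have : ((n:ℝ) + 1) ^ m ≠ 0 := by positivity
    field_simp
    linear_combination (V y) * e4
  rw [h5, div_le_iff₀ hg]
  calc Real.exp (-(a / Real.sqrt 2)) * (Real.exp (-C) * V y * Real.exp (-(a / Real.sqrt 2))
      * (((n:ℝ) + 1) ^ m * (1 + L) ^ m)⁻¹)
      ≤ Real.exp (-(a / Real.sqrt 2)) * (Real.exp (a / Real.sqrt 2) * (V x * gmass n)) :=
        mul_le_mul_of_nonneg_left h4 (Real.exp_pos _).le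
    _ = V x * gmass n := by rw [← mul_assoc, ← Real.exp_add]; simp

end Vale.Agent.P134.H283
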