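import Vale.Agent.P134.SM.Smooth
import Mathlib.Analysis.SpecialFunctions.Gaussian.GaussianIntegral

set_option linter.all false

/-! Gaussian averages: a Harnack inequality and a gradient estimate for nonnegative functions whose
Laplacian is controlled by the function. -/

namespace Vale.Agent.P134.H283

open Vale.Agent.P134 Vale.Agent.P134.SM MeasureTheory Filter Topology

variable {n : ℕ} {f g u V h : (Fin n → ℝ) → ℝ} {x y e : Fin n → ℝ} {i j q : Fin n} {b K M r : ℝ}

/-! ### The Gaussian -/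

/-- The Gaussian kernel (not normalised). -/
noncomputable def gam (b : ℝ) (y : Fin n → ℝ) : ℝ := Real.exp (-b * ∑ i, y i ^ 2)

lemma gam_pos (b : ℝ) (y : Fin n → ℝ) : 0 < gam b y := Real.exp_pos _

lemma gam_contDiff (b : ℝ) : ContDiff ℝ 1 (gam b : (Fin n → ℝ) → ℝ) := by
  unfold gam
  exact (contDiff_const.mul (ContDiff.sum fun i _ => (contDiff_apply ℝ ℝ i).pow 2)).exp

lemma gam_continuous (b : ℝ) : Continuous (gam b : (Fin n → ℝ) → ℝ) := (gam_contDiff b).continuous

lemma gam_integrable (hb : 0 < b) : Integrable (gam b : (Fin n → ℝ) → ℝ) := by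
  have : (gam b : (Fin n → ℝ) → ℝ) = fun y => ∏ i, Real.exp (-b * y i ^ 2) := by
    funext y; unfold gam; rw [Finset.mul_sum, Real.exp_sum]
  rw [this]
  exact Integrable.fintype_prod (f := fun (_ : Fin n) (t : ℝ) => Real.exp (-b * t ^ 2))
    fun _ => integrable_exp_neg_mul_sq hb

lemma pd_gam (b : ℝ) (i : Fin n) (y : Fin n → ℝ) : pd i (gam b) y = -(2 * b * y i * gam b y) := by
  have hd : DifferentiableAt ℝ (fun y : Fin n → ℝ => -b * ∑ i, y i ^ 2) y := by fun_prop
  have e0 : pd i (fun y : Fin n → ℝ => ∑ k, y k ^ 2) y = 2 * y i := by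
    rw [pd_sum Finset.univ (F := fun k (y : Fin n → ℝ) => y k ^ 2) (fun k _ => by fun_prop)]
    have : ∀ k, pd i (fun y : Fin n → ℝ => y k ^ 2) y = if k = i then 2 * y i else 0 := by
      intro k
      rw [pd_sq (f := fun y : Fin n → ℝ => y k) (by fun_prop), pd_coord]
      split_ifs with hk
      · subst hk; ring
      · ring
    simp_rw [this]
    simp
  have e1 : pd i (fun y : Fin n → ℝ => -b * ∑ k, y k ^ 2) y = -b * (2 * y i) := by
    rw [pd_mul (f := fun _ : Fin n → ℝ => -b) (by fun_prop) (by fun_prop), pd_const, e0]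
    ring
  unfold gam
  rw [pd_comp (h := Real.exp) Real.differentiableAt_exp hd, e1, Real.deriv_exp]
  ring

lemma sq_norm_le_sum (y : Fin n → ℝ) : ‖y‖ ^ 2 ≤ ∑ i, y i ^ 2 := by
  have h1 := norm_le_eno y
  have h2 : ∑ i, y i ^ 2 = eno y ^ 2 := by rw [eno_sq]; rfl
  rw [h2]
  exact pow_le_pow_left₀ (norm_nonneg _) h1 2

lemma weight_le (hK : 0 ≤ K) (y : Fin n → ℝ) (q : Fin n) :
    |y q| * Real.exp (K * ‖y‖) * gam (1 / 2) y ≤ Real.exp ((K + 1) ^ 2) * gam (1 / 4) y := by
  have h1 : |y q| ≤ ‖y‖ := norm_le_pi_norm y q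
  have h2 : ‖y‖ ≤ Real.exp ‖y‖ := by
    have := Real.add_one_le_exp ‖y‖; linarith
  have h3 := sq_norm_le_sum y
  have h4 : |y q| * Real.exp (K * ‖y‖) ≤ Real.exp ((K + 1) * ‖y‖) := by
    calc |y q| * Real.exp (K * ‖y‖) ≤ Real.exp ‖y‖ * Real.exp (K * ‖y‖) :=
          mul_le_mul_of_nonneg_right (h1.trans h2) (Real.exp_pos _).le
      _ = Real.exp ((K + 1) * ‖y‖) := by rw [← Real.exp_add]; ring_nf
  calc |y q| * Real.exp (K * ‖y‖) * gam (1 / 2) y
      ≤ Real.exp ((K + 1) * ‖y‖) * gam (1 / 2) y :=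
        mul_le_mul_of_nonneg_right h4 (gam_pos _ _).le
    _ ≤ Real.exp ((K + 1) ^ 2) * gam (1 / 4) y := by
        unfold gam
        rw [← Real.exp_add, ← Real.exp_add]
        apply Real.exp_le_exp.mpr
        nlinarith only [sq_nonneg (‖y‖ / 2 - (K + 1)), h3]

lemma weight_le' (hK : 0 ≤ K) (y : Fin n → ℝ) :
    Real.exp (K * ‖y‖) * gam (1 / 2) y ≤ Real.exp ((K + 1) ^ 2) * gam (1 / 4) y := by
  have h3 := sq_norm_le_sum y
  have h0 := norm_nonneg y
  unfold gam
  rw [← Real.exp_add, ← Real.exp_add]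
  apply Real.exp_le_exp.mpr
  nlinarith only [sq_nonneg (‖y‖ / 2 - (K + 1)), h3, h0]

lemma weight1_le (y : Fin n → ℝ) (q : Fin n) :
    |y q| * gam (1 / 2) y ≤ Real.exp 1 * gam (1 / 4) y := by
  have := weight_le (K := 0) le_rfl y q
  simpa using this

/-! ### Nice functions -/

lemma Nice.bdd (hf : Nice f) : ∃ C : ℝ, 0 ≤ C ∧ ∀ x, |f x| ≤ C := by
  obtain ⟨C, hC⟩ := hf.2 0
  exact ⟨C, hC.nonneg, hC.bd⟩

lemma Nice.cont (hf : Nice f) : Continuous f := hf.1.continuous

lemma Nice.add (hf : Nice f) (hg : Nice g) : Nice (fun y => f y + g y) := by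
  refine ⟨hf.1.add hg.1, fun m => ?_⟩
  obtain ⟨A, hA⟩ := hf.2 m
  obtain ⟨B, hB⟩ := hg.2 m
  exact ⟨A + B, hA.add hB⟩

lemma Nice.sub (hf : Nice f) (hg : Nice g) : Nice (fun y => f y - g y) := by
  refine ⟨hf.1.sub hg.1, fun m => ?_⟩
  obtain ⟨A, hA⟩ := hf.2 m
  obtain ⟨B, hB⟩ := hg.2 m
  exact ⟨A + B, hA.sub hB⟩

lemma Nice.mul (hf : Nice f) (hg : Nice g) : Nice (fun y => f y * g y) := by
  refine ⟨hf.1.mul hg.1, fun m => ?_⟩
  obtain ⟨A, hA⟩ := hf.2 m
  obtain ⟨B, hB⟩ := hg.2 m
  exact ⟨_, DB.mul m f g A B hA hB⟩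

lemma dl_const (c : ℝ) : ∀ l : List (Fin n → ℝ), l ≠ [] → dl l (fun _ => c) = fun _ => 0 := by
  intro l
  induction l with
  | nil => intro h; exact absurd rfl h
  | cons v l ih =>
      intro _
      funext x
      rw [dl_cons]
      by_cases hl : l = []
      · subst hl; simp [dl_nil]
      · rw [ih hl]; simp

lemma Nice.const (c : ℝ) : Nice (fun _ : Fin n → ℝ => c) := by
  refine ⟨differentiable_const c, fun m => ⟨|c|, fun l _ x => ?_⟩⟩
  by_cases hl : l = []
  · subst hl; simp [dl_nil]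
  · rw [dl_const c l hl, abs_zero]
    exact mul_nonneg (abs_nonneg _) (List.prod_nonneg (by simp))

lemma Nice.cmul (c : ℝ) (hf : Nice f) : Nice (fun y => c * f y) := Nice.mul (Nice.const c) hf

lemma Nice.sum {ι : Type*} (s : Finset ι) {F : ι → (Fin n → ℝ) → ℝ} (hF : ∀ k ∈ s, Nice (F k)) :
    Nice (fun y => ∑ k ∈ s, F k y) := by
  classical
  induction s using Finset.induction_on with
  | empty => simpa using Nice.const (n := n) 0
  | insert a s ha ih =>
      have e : (fun y => ∑ k ∈ insert a s, F k y) = fun y => F a y + ∑ k ∈ s, F k y := by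
        funext y; rw [Finset.sum_insert ha]
      rw [e]
      exact Nice.add (hF a (Finset.mem_insert_self _ _))
        (ih fun k hk => hF k (Finset.mem_insert_of_mem hk))

/-- The Laplacian. -/
noncomputable def lap (f : (Fin n → ℝ) → ℝ) (x : Fin n → ℝ) : ℝ := ∑ i, pd i (pd i f) x

lemma Nice.lap (hf : Nice f) : Nice (H283.lap f) := Nice.sum _ fun i _ => (hf.pd i).pd i

lemma Nice.c2 (hf : Nice f) : ContDiff ℝ 2 f := Nice.contDiff 2 f hf
lemma Nice.c1 (hf : Nice f) : ContDiff ℝ 1 f := Nice.contDiff 1 f hf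

lemma lap_pd (hf : Nice f) (q : Fin n) : lap (pd q f) = pd q (lap f) := by
  funext x
  unfold H283.lap
  rw [pd_sum Finset.univ (F := fun i y => pd i (pd i f) y) (fun i _ => ((hf.pd i).pd i).1 x)]
  refine Finset.sum_congr rfl fun i _ => ?_
  have h1 : pd i (pd q f) = pd q (pd i f) := by
    funext y; exact pd_comm (Nice.c2 hf)
  rw [h1, pd_comm (Nice.c2 (hf.pd i))]

/-! ### Averages -/

/-- Gaussian average. -/
noncomputable def avg (V : (Fin n → ℝ) → ℝ) (x : Fin n → ℝ) (r : ℝ) : ℝ :=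
  ∫ y, V (x + r • y) * gam (1 / 2) y

/-- Gaussian average with a linear weight. -/
noncomputable def avg1 (q : Fin n) (V : (Fin n → ℝ) → ℝ) (x : Fin n → ℝ) (r : ℝ) : ℝ :=
  ∫ y, V (x + r • y) * (y q * gam (1 / 2) y)

/-- The total mass of the Gaussian. -/
noncomputable def gmass (n : ℕ) : ℝ := ∫ y : Fin n → ℝ, gam (1 / 2) y

lemma gmass_pos : 0 < gmass n := by
  unfold gmass
  rw [integral_pos_iff_support_of_nonneg (fun y => (gam_pos _ y).le) (gam_integrable (by norm_num))]
  have : Function.support (gam (1 / 2) : (Fin n → ℝ) → ℝ) = Set.univ := by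
    ext y; exact ⟨fun _ => trivial, fun _ => (gam_pos (1 / 2) y).ne'⟩
  rw [this]
  exact Measure.measure_univ_pos.mpr (NeZero.ne _)

lemma comp_continuous (hV : Continuous V) (x : Fin n → ℝ) (r : ℝ) :
    Continuous (fun y : Fin n → ℝ => V (x + r • y)) :=
  hV.comp (continuous_const.add (continuous_const_smul r))

lemma lin_integrable (q : Fin n) :
    Integrable (fun y : Fin n → ℝ => y q * gam (1 / 2) y) := by
  refine Integrable.mono' ((gam_integrable (n := n) (b := 1 / 4) (by norm_num)).const_mul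
    (Real.exp 1)) ((continuous_apply q).mul (gam_continuous _)).aestronglyMeasurable ?_
  filter_upwards with y
  rw [Real.norm_eq_abs, abs_mul, abs_of_pos (gam_pos _ y)]
  exact weight1_le y q

lemma integrable_bdd_mul {F G : (Fin n → ℝ) → ℝ} (hF : Continuous F) {C : ℝ}
    (hC : ∀ x, |F x| ≤ C) (hG : Integrable G) : Integrable (fun y => F y * G y) :=
  hG.bdd_mul hF.aestronglyMeasurable (Filter.Eventually.of_forall fun y => by
    rw [Real.norm_eq_abs]; exact hC y)

lemma avg_integrable (hV : Nice V) (x : Fin n → ℝ) (r : ℝ) :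
    Integrable (fun y => V (x + r • y) * gam (1 / 2) y) := by
  obtain ⟨C, -, hC⟩ := Nice.bdd hV
  exact integrable_bdd_mul (comp_continuous (Nice.cont hV) x r) (fun y => hC _)
    (gam_integrable (by norm_num))

lemma avg1_integrable (hV : Nice V) (q : Fin n) (x : Fin n → ℝ) (r : ℝ) :
    Integrable (fun y => V (x + r • y) * (y q * gam (1 / 2) y)) := by
  obtain ⟨C, -, hC⟩ := Nice.bdd hV
  exact integrable_bdd_mul (comp_continuous (Nice.cont hV) x r) (fun y => hC _) (lin_integrable q)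

lemma avg_zero (V : (Fin n → ℝ) → ℝ) (x : Fin n → ℝ) : avg V x 0 = V x * gmass n := by
  unfold avg gmass
  simp only [zero_smul, add_zero]
  rw [integral_const_mul]

lemma comp_nice_contDiff (hV : Nice V) (x : Fin n → ℝ) (r : ℝ) :
    ContDiff ℝ 1 (fun y : Fin n → ℝ => V (x + r • y)) :=
  (Nice.c1 hV).comp (contDiff_const.add (contDiff_const_smul r))

lemma pd_comp_smul (hV : Differentiable ℝ V) (x : Fin n → ℝ) (r : ℝ) (q : Fin n) (y : Fin n → ℝ) :
    pd q (fun y : Fin n → ℝ => V (x + r • y)) y = r * pd q V (x + r • y) := by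
  unfold pd
  have h1 : HasFDerivAt (fun y : Fin n → ℝ => x + r • y) (r • ContinuousLinearMap.id ℝ _) y :=
    ((hasFDerivAt_id y).const_smul r).const_add x
  have h2 := (hV (x + r • y)).hasFDerivAt.comp y h1
  have h3 : (fun y : Fin n → ℝ => V (x + r • y)) = V ∘ fun y => x + r • y := rfl
  rw [h3, h2.fderiv]
  simp

/-- Integration by parts against the Gaussian. -/
lemma avg_pd (hV : Nice V) (q : Fin n) (x : Fin n → ℝ) (r : ℝ) :
    r * avg (pd q V) x r = avg1 q V x r := by
  set F : (Fin n → ℝ) → ℝ := fun y => V (x + r • y) with hF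
  have hpF : ∀ y, pd q F y = r * pd q V (x + r • y) := fun y => pd_comp_smul hV.1 x r q y
  have hF1 : ContDiff ℝ 1 F := comp_nice_contDiff hV x r
  have e1 : (fun y : Fin n → ℝ => F y * pd q (gam (1 / 2)) y)
      = fun y => -(V (x + r • y) * (y q * gam (1 / 2) y)) := by
    funext y; rw [pd_gam, hF]; ring
  have e2 : (fun y : Fin n → ℝ => pd q F y * gam (1 / 2) y)
      = fun y => r * (pd q V (x + r • y) * gam (1 / 2) y) := by
    funext y; rw [hpF]; ring
  have i1 : Integrable (fun y : Fin n → ℝ => F y * pd q (gam (1 / 2)) y) := by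
    rw [e1]; exact (avg1_integrable hV q x r).neg
  have i2 : Integrable (fun y : Fin n → ℝ => pd q F y * gam (1 / 2) y) := by
    rw [e2]; exact (avg_integrable (hV.pd q) x r).const_mul r
  have i3 : Integrable (fun y : Fin n → ℝ => F y * gam (1 / 2) y) := avg_integrable hV x r
  have key : ∫ y, F y * pd q (gam (1 / 2)) y = - ∫ y, pd q F y * gam (1 / 2) y :=
    integral_mul_fderiv_eq_neg_fderiv_mul_of_integrable (μ := volume) i2 i1 i3
      (fun y _ => (hF1.differentiable (by norm_num)) y)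
      (fun y _ => ((gam_contDiff _).differentiable (by norm_num)) y)
  rw [e1, e2, integral_neg, integral_const_mul, neg_inj] at key
  unfold avg avg1
  exact key.symm

lemma hasDerivAt_ray (hV : Differentiable ℝ V) (x y : Fin n → ℝ) (r : ℝ) :
    HasDerivAt (fun s : ℝ => V (x + s • y)) (∑ i, y i * pd i V (x + r • y)) r := by
  have := hasDerivAt_dd hV x y r
  unfold dd at this
  exact this

/-- The derivative of the Gaussian average in the radius. -/
lemma avg_hasDerivAt (hV : Nice V) (x : Fin n → ℝ) (r : ℝ) :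
    HasDerivAt (avg V x) (r * avg (lap V) x r) r := by
  have hb : ∀ i : Fin n, ∃ C : ℝ, 0 ≤ C ∧ ∀ x, |pd i V x| ≤ C := fun i => Nice.bdd (hV.pd i)
  choose C hC0 hC using hb
  set F' : ℝ → (Fin n → ℝ) → ℝ := fun s y => (∑ i, y i * pd i V (x + s • y)) * gam (1 / 2) y with hF'
  have hrew : ∀ s y, F' s y = ∑ i, pd i V (x + s • y) * (y i * gam (1 / 2) y) := by
    intro s y
    rw [hF']
    simp only
    rw [Finset.sum_mul]
    refine Finset.sum_congr rfl fun i _ => ?_
    ring
  have hF'c : Continuous (F' r) := by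
    have e : F' r = fun y => ∑ i, pd i V (x + r • y) * (y i * gam (1 / 2) y) := by
      funext y; exact hrew r y
    rw [e]
    exact continuous_finsetSum _ fun i _ =>
      (comp_continuous (Nice.cont (hV.pd i)) x r).mul ((continuous_apply i).mul (gam_continuous _))
  have hbound : ∀ s y, ‖F' s y‖ ≤ ∑ i, C i * |y i * gam (1 / 2) y| := by
    intro s y
    rw [hrew, Real.norm_eq_abs]
    refine (Finset.abs_sum_le_sum_abs _ _).trans (Finset.sum_le_sum fun i _ => ?_)
    rw [abs_mul]
    exact mul_le_mul_of_nonneg_right (hC i _) (abs_nonneg _)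
  have hbi : Integrable (fun y : Fin n → ℝ => ∑ i, C i * |y i * gam (1 / 2) y|) :=
    integrable_finsetSum _ fun i _ => ((lin_integrable i).abs).const_mul _
  have hmain := (hasDerivAt_integral_of_dominated_loc_of_deriv_le (μ := volume)
    (F := fun s y => V (x + s • y) * gam (1 / 2) y) (F' := F') (x₀ := r) (s := Set.univ)
    (bound := fun y => ∑ i, C i * |y i * gam (1 / 2) y|) Filter.univ_mem
    (Filter.Eventually.of_forall fun s =>
      ((comp_continuous (Nice.cont hV) x s).mul (gam_continuous _)).aestronglyMeasurable)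
    (avg_integrable hV x r) hF'c.aestronglyMeasurable
    (Filter.Eventually.of_forall fun y s _ => hbound s y) hbi
    (Filter.Eventually.of_forall fun y s _ => by
      exact (hasDerivAt_ray hV.1 x y s).mul_const _)).2
  have e : ∫ y, F' r y = r * avg (lap V) x r := by
    have e1 : ∀ i : Fin n, ∫ y, pd i V (x + r • y) * (y i * gam (1 / 2) y)
        = r * avg (pd i (pd i V)) x r := by
      intro i
      have := avg_pd (hV.pd i) i x r
      unfold avg1 at this
      exact this.symm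
    simp_rw [hrew]
    rw [integral_finsetSum _ fun i _ => avg1_integrable (hV.pd i) i x r]
    simp_rw [e1]
    rw [← Finset.mul_sum]
    congr 1
    unfold avg H283.lap
    rw [← integral_finsetSum _ fun i _ => avg_integrable ((hV.pd i).pd i) x r]
    congr 1
    funext y
    rw [Finset.sum_mul]
  rw [e] at hmain
  exact hmain

/-- Change of variables: the average of radius `√2 r` dominates the wide Gaussian. -/
lemma avg_wide (V : (Fin n → ℝ) → ℝ) (x : Fin n → ℝ) (r : ℝ) :
    ∫ y, V (x + r • y) * gam (1 / 4) y = (Real.sqrt 2) ^ n * avg V x (Real.sqrt 2 * r) := by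
  have h2 : (0:ℝ) < Real.sqrt 2 := by positivity
  have hs : Real.sqrt 2 ^ 2 = 2 := Real.sq_sqrt (by norm_num)
  have h := Measure.integral_comp_smul_of_nonneg (volume : Measure (Fin n → ℝ))
    (fun y => V (x + r • y) * gam (1 / 4) y) (Real.sqrt 2) (hR := h2.le)
  rw [Module.finrank_fin_fun, smul_eq_mul] at h
  have e : ∀ y : Fin n → ℝ, V (x + r • (Real.sqrt 2 • y)) * gam (1 / 4) (Real.sqrt 2 • y)
      = V (x + (Real.sqrt 2 * r) • y) * gam (1 / 2) y := by
    intro y
    rw [smul_smul, mul_comm r]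
    congr 1
    unfold gam
    congr 1
    simp only [Pi.smul_apply, smul_eq_mul, mul_pow, hs]
    rw [← Finset.mul_sum]; ring
  simp_rw [e] at h
  unfold avg
  rw [h, ← mul_assoc, mul_inv_cancel₀ (by positivity), one_mul]

/-- A function with `|F'| ≤ K t F` grows at most like `exp (K t^2 / 2)`. -/
lemma gronwall_gauss {F F' : ℝ → ℝ} (hd : ∀ t, HasDerivAt F (F' t) t)
    (hK : ∀ t, 0 ≤ t → F' t ≤ K * t * F t) {t : ℝ} (ht : 0 ≤ t) :
    F t ≤ Real.exp (K * t ^ 2 / 2) * F 0 := by
  set G : ℝ → ℝ := fun t => F t * Real.exp (-(K * t ^ 2 / 2)) with hG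
  have hGd : ∀ s, HasDerivAt G ((F' s - K * s * F s) * Real.exp (-(K * s ^ 2 / 2))) s := by
    intro s
    have h1 : HasDerivAt (fun s : ℝ => -(K * s ^ 2 / 2)) (-(K * s)) s := by
      have := (((hasDerivAt_pow 2 s).const_mul K).div_const 2).neg
      refine this.congr_deriv ?_
      norm_num; ring
    have h2 := (hd s).mul h1.exp
    refine h2.congr_deriv ?_
    ring
  have hanti : AntitoneOn G (Set.Ici 0) := by
    apply antitoneOn_of_deriv_nonpos (convex_Ici 0)
      (fun s _ => (hGd s).continuousAt.continuousWithinAt)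
      (fun s _ => (hGd s).differentiableAt.differentiableWithinAt)
    intro s hs
    rw [interior_Ici] at hs
    rw [(hGd s).deriv]
    exact mul_nonpos_of_nonpos_of_nonneg (by linarith [hK s (le_of_lt hs)]) (Real.exp_pos _).le
  have h := hanti (Set.mem_Ici.mpr le_rfl) (Set.mem_Ici.mpr ht) ht
  simp only [hG] at h
  have e0 : F 0 * Real.exp (-(K * (0:ℝ) ^ 2 / 2)) = F 0 := by simp
  rw [e0] at h
  calc F t = Real.exp (K * t ^ 2 / 2) * (F t * Real.exp (-(K * t ^ 2 / 2))) := by
        rw [mul_comm (F t), ← mul_assoc, ← Real.exp_add]; simp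
    _ ≤ Real.exp (K * t ^ 2 / 2) * F 0 := mul_le_mul_of_nonneg_left h (Real.exp_pos _).le

lemma avg_mono {V W : (Fin n → ℝ) → ℝ} (hV : Nice V) (hW : Nice W) (h : ∀ x, V x ≤ W x)
    (x : Fin n → ℝ) (r : ℝ) : avg V x r ≤ avg W x r := by
  unfold avg
  exact integral_mono (avg_integrable hV x r) (avg_integrable hW x r)
    fun y => mul_le_mul_of_nonneg_right (h _) (gam_pos _ _).le

lemma avg_cmul (c : ℝ) (V : (Fin n → ℝ) → ℝ) (x : Fin n → ℝ) (r : ℝ) :
    avg (fun y => c * V y) x r = c * avg V x r := by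
  unfold avg
  rw [← integral_const_mul]
  congr 1; funext y; ring

/-- Upper bound for the average of a function with `Δ V ≤ K V`. -/
lemma avg_le (hV : Nice V) (hL : ∀ x, lap V x ≤ K * V x) (x : Fin n → ℝ) (hr : 0 ≤ r) :
    avg V x r ≤ Real.exp (K * r ^ 2 / 2) * (V x * gmass n) := by
  have h := gronwall_gauss (F := avg V x) (K := K) (fun t => avg_hasDerivAt hV x t)
    (fun t ht => by
      have h1 := avg_mono (Nice.lap hV) (Nice.cmul K hV) hL x t
      rw [avg_cmul] at h1
      have := mul_le_mul_of_nonneg_left h1 ht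
      calc t * avg (lap V) x t ≤ t * (K * avg V x t) := this
        _ = K * t * avg V x t := by ring) hr
  rw [avg_zero] at h
  exact h

/-- Lower bound for the average of a function with `-K V ≤ Δ V`. -/
lemma le_avg (hV : Nice V) (hL : ∀ x, -(K * V x) ≤ lap V x) (x : Fin n → ℝ) (hr : 0 ≤ r) :
    V x * gmass n ≤ Real.exp (K * r ^ 2 / 2) * avg V x r := by
  have h := gronwall_gauss (F := fun t => -avg V x t) (F' := fun t => -(t * avg (lap V) x t))
    (K := -K) (fun t => (avg_hasDerivAt hV x t).neg)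
    (fun t ht => by
      have h1 := avg_mono (Nice.cmul (-K) hV) (Nice.lap hV) (fun y => by
        have := hL y; linarith) x t
      rw [avg_cmul] at h1
      have := mul_le_mul_of_nonneg_left h1 ht
      nlinarith only [this]) hr
  rw [avg_zero] at h
  have e : Real.exp (-K * r ^ 2 / 2) * -(V x * gmass n)
      = -(Real.exp (-(K * r ^ 2 / 2)) * (V x * gmass n)) := by
    rw [mul_neg]; congr 3; ring
  rw [e, neg_le_neg_iff] at h
  calc V x * gmass n = Real.exp (K * r ^ 2 / 2) * (Real.exp (-(K * r ^ 2 / 2)) * (V x * gmass n)) := by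
        rw [← mul_assoc, ← Real.exp_add]; simp
    _ ≤ Real.exp (K * r ^ 2 / 2) * avg V x r := mul_le_mul_of_nonneg_left h (Real.exp_pos _).le

/-- The increment of the average of a partial derivative. -/
lemma pd_mul_gmass_le (hV : Nice V) (q : Fin n) (x : Fin n → ℝ) {B : ℝ}
    (hB : ∀ r, 0 ≤ r → r ≤ 1 → |avg1 q (lap V) x r| ≤ B) :
    |pd q V x| * gmass n ≤ |avg1 q V x 1| + B := by
  have hd : ∀ r, HasDerivAt (avg (pd q V) x) (avg1 q (lap V) x r) r := by
    intro r
    have := avg_hasDerivAt (hV.pd q) x r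
    rw [lap_pd hV, avg_pd (Nice.lap hV)] at this
    exact this
  have h := (convex_Icc (0:ℝ) 1).norm_image_sub_le_of_norm_hasDerivWithin_le
    (f := avg (pd q V) x) (f' := fun r => avg1 q (lap V) x r) (C := B) (x := 0) (y := 1)
    (fun r _ => (hd r).hasDerivWithinAt)
    (fun r hr => by rw [Real.norm_eq_abs]; exact hB r hr.1 hr.2)
    (Set.left_mem_Icc.mpr zero_le_one) (Set.right_mem_Icc.mpr zero_le_one)
  rw [Real.norm_eq_abs, sub_zero, norm_one, mul_one, avg_zero] at h
  have h1 : avg (pd q V) x 1 = avg1 q V x 1 := by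
    have := avg_pd hV q x 1
    rwa [one_mul] at this
  rw [h1] at h
  have hg := gmass_pos (n := n)
  have e : |pd q V x| * gmass n = |pd q V x * gmass n| := by
    rw [abs_mul, abs_of_pos hg]
  rw [e]
  have := abs_sub_abs_le_abs_sub (pd q V x * gmass n) (avg1 q V x 1)
  rw [abs_sub_comm] at this
  linarith

lemma wide_integrable (hV : Nice V) (x : Fin n → ℝ) (r : ℝ) :
    Integrable (fun y => V (x + r • y) * gam (1 / 4) y) := by
  obtain ⟨C, -, hC⟩ := Nice.bdd hV
  exact integrable_bdd_mul (comp_continuous (Nice.cont hV) x r) (fun y => hC _)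
    (gam_integrable (by norm_num))

lemma abs_avg1_le (hV : Nice V) {W : (Fin n → ℝ) → ℝ} {c : ℝ} (hc : 0 ≤ c)
    (hW : ∀ x, |W x| ≤ c * V x) (q : Fin n) (x : Fin n → ℝ) (r : ℝ) :
    |avg1 q W x r| ≤ c * (Real.exp 1 * ((Real.sqrt 2) ^ n * avg V x (Real.sqrt 2 * r))) := by
  rw [← avg_wide V x r, ← integral_const_mul, ← integral_const_mul]
  unfold avg1
  rw [← Real.norm_eq_abs]
  refine norm_integral_le_of_norm_le (((wide_integrable hV x r).const_mul _).const_mul _) ?_
  filter_upwards with y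
  rw [Real.norm_eq_abs, abs_mul, abs_mul, abs_of_pos (gam_pos _ y)]
  have h1 := hW (x + r • y)
  have h2 := weight1_le y q
  have h0 : 0 ≤ V (x + r • y) * c := by rw [mul_comm]; exact (abs_nonneg _).trans h1
  calc |W (x + r • y)| * (|y q| * gam (1 / 2) y)
      ≤ (c * V (x + r • y)) * (Real.exp 1 * gam (1 / 4) y) :=
        mul_le_mul h1 h2 (mul_nonneg (abs_nonneg _) (gam_pos _ y).le) ((abs_nonneg _).trans h1)
    _ = c * (Real.exp 1 * (V (x + r • y) * gam (1 / 4) y)) := by ring

/-- The constant of the Harnack inequality. -/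
noncomputable def cH (n : ℕ) (K : ℝ) : ℝ := (1 + K) * (Real.exp (1 + K) * (Real.sqrt 2) ^ n)

lemma cH_pos (n : ℕ) (hK : 0 ≤ K) : 0 < cH n K := by
  unfold cH; positivity

/-- **Gradient bound**: a nonnegative function with `|Δ V| ≤ K V` satisfies `|∂ V| ≤ C V`. -/
theorem abs_pd_le (hV : Nice V) (hK : 0 ≤ K) (hV0 : ∀ x, 0 ≤ V x)
    (hL : ∀ x, |lap V x| ≤ K * V x) (q : Fin n) (x : Fin n → ℝ) :
    |pd q V x| ≤ cH n K * V x := by
  have hg := gmass_pos (n := n)
  have h2 : (0:ℝ) < Real.sqrt 2 := by positivity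
  have hs : Real.sqrt 2 ^ 2 = 2 := Real.sq_sqrt (by norm_num)
  have havg : ∀ r, 0 ≤ r → r ≤ 1 →
      avg V x (Real.sqrt 2 * r) ≤ Real.exp K * (V x * gmass n) := by
    intro r h0 h1
    have h := avg_le hV (fun y => (le_abs_self _).trans (hL y)) x
      (r := Real.sqrt 2 * r) (by positivity)
    refine h.trans (mul_le_mul_of_nonneg_right ?_ (mul_nonneg (hV0 x) hg.le))
    apply Real.exp_le_exp.mpr
    rw [mul_pow, hs]
    have : r ^ 2 ≤ 1 := by nlinarith only [h0, h1]
    nlinarith only [this, hK]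
  set D : ℝ := Real.exp 1 * ((Real.sqrt 2) ^ n * (Real.exp K * (V x * gmass n))) with hD
  have hD1 : ∀ r, 0 ≤ r → r ≤ 1 →
      Real.exp 1 * ((Real.sqrt 2) ^ n * avg V x (Real.sqrt 2 * r)) ≤ D := by
    intro r h0 h1
    rw [hD]
    exact mul_le_mul_of_nonneg_left (mul_le_mul_of_nonneg_left (havg r h0 h1) (by positivity))
      (Real.exp_pos _).le
  have h1 : |avg1 q V x 1| ≤ D := by
    have := abs_avg1_le hV (W := V) (c := 1) zero_le_one (fun y => by
      rw [one_mul, abs_of_nonneg (hV0 y)]) q x 1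
    rw [one_mul] at this
    exact this.trans (hD1 1 zero_le_one le_rfl)
  have h3 : ∀ r, 0 ≤ r → r ≤ 1 → |avg1 q (lap V) x r| ≤ K * D := by
    intro r h0 h1
    exact (abs_avg1_le hV hK hL q x r).trans (mul_le_mul_of_nonneg_left (hD1 r h0 h1) hK)
  have h4 := pd_mul_gmass_le hV q x h3
  have h5 : |pd q V x| * gmass n ≤ (cH n K * V x) * gmass n := by
    refine h4.trans ((add_le_add_left h1 _).trans (le_of_eq ?_))
    rw [hD, cH, Real.exp_add]
    ring
  exact le_of_mul_le_mul_right h5 hg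

/-- Exponential Harnack inequality from the gradient bound. -/
theorem harnack_of_grad (hV : Differentiable ℝ V) {C : ℝ} (hC : 0 ≤ C) (hV0 : ∀ x, 0 ≤ V x)
    (hL : ∀ q x, |pd q V x| ≤ C * V x) (x y : Fin n → ℝ) :
    V y ≤ Real.exp (n * C * ‖y - x‖) * V x := by
  set F : ℝ → ℝ := fun s => V (x + s • (y - x)) with hF
  have hd : ∀ s, HasDerivAt F (∑ i, (y - x) i * pd i V (x + s • (y - x))) s :=
    fun s => hasDerivAt_ray hV x (y - x) s
  have hb : ∀ s, ∑ i, (y - x) i * pd i V (x + s • (y - x)) ≤ n * C * ‖y - x‖ * F s := by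
    intro s
    have h1 : ∀ i ∈ (Finset.univ : Finset (Fin n)), (y - x) i * pd i V (x + s • (y - x))
        ≤ ‖y - x‖ * (C * F s) := by
      intro i _
      refine (le_abs_self _).trans ?_
      rw [abs_mul]
      exact mul_le_mul (norm_le_pi_norm (y - x) i) (hL i _) (abs_nonneg _) (norm_nonneg _)
    refine (Finset.sum_le_sum h1).trans (le_of_eq ?_)
    rw [Finset.sum_const, Finset.card_univ, Fintype.card_fin, nsmul_eq_mul]
    ring
  set c : ℝ := n * C * ‖y - x‖ with hc
  set G : ℝ → ℝ := fun t => F t * Real.exp (-(c * t)) with hG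
  have hGd : ∀ s, HasDerivAt G (((∑ i, (y - x) i * pd i V (x + s • (y - x))) - c * F s)
      * Real.exp (-(c * s))) s := by
    intro s
    have h1 : HasDerivAt (fun s : ℝ => -(c * s)) (-c) s := by
      have := ((hasDerivAt_id s).const_mul c).neg
      refine this.congr_deriv ?_
      simp
    have h2 := (hd s).mul h1.exp
    refine h2.congr_deriv ?_
    ring
  have hanti : Antitone G := by
    apply antitone_of_deriv_nonpos (fun s => (hGd s).differentiableAt)
    intro s
    rw [(hGd s).deriv]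
    exact mul_nonpos_of_nonpos_of_nonneg (by linarith [hb s]) (Real.exp_pos _).le
  have h := hanti (zero_le_one (α := ℝ))
  simp only [hG, hF] at h
  have e0 : V (x + (0:ℝ) • (y - x)) * Real.exp (-(c * 0)) = V x := by simp
  have e1 : x + (1:ℝ) • (y - x) = y := by simp
  rw [e0, e1, mul_one] at h
  calc V y = Real.exp c * (V y * Real.exp (-c)) := by
        rw [mul_comm (V y), ← mul_assoc, ← Real.exp_add]; simp
    _ ≤ Real.exp c * V x := mul_le_mul_of_nonneg_left h (Real.exp_pos _).le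

/-- **Harnack inequality**. -/
theorem harnack (hV : Nice V) (hK : 0 ≤ K) (hV0 : ∀ x, 0 ≤ V x)
    (hL : ∀ x, |lap V x| ≤ K * V x) (x y : Fin n → ℝ) :
    V y ≤ Real.exp (n * cH n K * ‖y - x‖) * V x :=
  harnack_of_grad hV.1 (cH_pos n hK).le hV0 (fun q x => abs_pd_le hV hK hV0 hL q x) x y

lemma integral_wide : ∫ y : Fin n → ℝ, gam (1 / 4) y = (Real.sqrt 2) ^ n * gmass n := by
  have h := avg_wide (n := n) (fun _ => 1) 0 1
  simp only [one_mul] at h
  rw [h]
  unfold avg gmass
  simp only [one_mul]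

/-- The constant of the gradient estimate. -/
noncomputable def cG (n : ℕ) (K : ℝ) : ℝ := 2 * (Real.exp ((K + 1) ^ 2) * (Real.sqrt 2) ^ n)

lemma cG_pos (n : ℕ) (K : ℝ) : 0 < cG n K := by
  unfold cG; positivity

/-- **Gradient estimate** with exponentially growing majorants. -/
theorem abs_pd_le_of_exp (hh : Nice h) (hK : 0 ≤ K) {M : ℝ} (x : Fin n → ℝ)
    (h0 : ∀ y, |h y| ≤ M * Real.exp (K * ‖y - x‖))
    (h1 : ∀ y, |lap h y| ≤ M * Real.exp (K * ‖y - x‖)) (q : Fin n) :
    |pd q h x| ≤ cG n K * M := by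
  have hM : 0 ≤ M := by
    have := (abs_nonneg _).trans (h0 x)
    simpa using this
  have hg := gmass_pos (n := n)
  have key : ∀ W : (Fin n → ℝ) → ℝ, (∀ y, |W y| ≤ M * Real.exp (K * ‖y - x‖)) →
      ∀ r, 0 ≤ r → r ≤ 1 → |avg1 q W x r|
        ≤ M * (Real.exp ((K + 1) ^ 2) * ((Real.sqrt 2) ^ n * gmass n)) := by
    intro W hW r hr0 hr1
    rw [← integral_wide, ← integral_const_mul, ← integral_const_mul]
    unfold avg1
    rw [← Real.norm_eq_abs]
    refine norm_integral_le_of_norm_le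
      (((gam_integrable (n := n) (b := 1 / 4) (by norm_num)).const_mul _).const_mul _) ?_
    filter_upwards with y
    rw [Real.norm_eq_abs, abs_mul, abs_mul, abs_of_pos (gam_pos _ y)]
    have h2 := hW (x + r • y)
    have h3 : ‖x + r • y - x‖ ≤ ‖y‖ := by
      rw [add_sub_cancel_left, norm_smul, Real.norm_eq_abs, abs_of_nonneg hr0]
      exact mul_le_of_le_one_left (norm_nonneg _) hr1
    have h4 : Real.exp (K * ‖x + r • y - x‖) ≤ Real.exp (K * ‖y‖) :=
      Real.exp_le_exp.mpr (mul_le_mul_of_nonneg_left h3 hK)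
    have h5 := weight_le hK y q
    calc |W (x + r • y)| * (|y q| * gam (1 / 2) y)
        ≤ (M * Real.exp (K * ‖y‖)) * (|y q| * gam (1 / 2) y) :=
          mul_le_mul_of_nonneg_right (h2.trans (mul_le_mul_of_nonneg_left h4 hM))
            (mul_nonneg (abs_nonneg _) (gam_pos _ y).le)
      _ = M * (|y q| * Real.exp (K * ‖y‖) * gam (1 / 2) y) := by ring
      _ ≤ M * (Real.exp ((K + 1) ^ 2) * gam (1 / 4) y) := mul_le_mul_of_nonneg_left h5 hM
  have h4 := pd_mul_gmass_le hh q x (fun r a b => key _ h1 r a b)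
  have h5 := key h h0 1 zero_le_one le_rfl
  have h6 : |pd q h x| * gmass n ≤ (cG n K * M) * gmass n := by
    refine h4.trans ((add_le_add_left h5 _).trans (le_of_eq ?_))
    rw [cG]; ring
  exact le_of_mul_le_mul_right h6 hg

end Vale.Agent.P134.H283
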