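import Vale.Agent.P134.H283.Inter

set_option linter.all false

/-! Second derivatives: `|∂² V_e| ≤ C V_e`, `|∂² D| ≤ C D`, `|∂² q| ≤ C q`, everywhere. -/

namespace Vale.Agent.P134.H283

open Vale.Agent.P134 Vale.Agent.P134.SM Vale.Agent.P134.LI MeasureTheory Filter Topology

section general

variable {n : ℕ} {f g u V h : (Fin n → ℝ) → ℝ} {x y z e t : Fin n → ℝ} {i j k q : Fin n}
  {b K M r C : ℝ}

lemma defi_div_le (hu : Sol u) (he : ∑ i, e i ^ 2 ≤ 1) (x : Fin n → ℝ) :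
    defi u x / Real.sqrt 2 ≤ 2 * Vd e u x := by
  have h1 := defi_le_Vd he u x
  have h2 := Vd_le_f hu (neg_unit he) x
  have h3 := Vd_nonneg hu he x
  have h0 := sqrt2_pos
  have hs := sqrt2_sq
  have h5 := psi_le_one u x
  rw [div_le_iff₀ h0]
  calc defi u x ≤ 4 * (Vd e u x * Vd (-e) u x) := h1
    _ ≤ 4 * (Vd e u x * (psi u x / Real.sqrt 2)) := by gcongr
    _ ≤ 4 * (Vd e u x * (1 / Real.sqrt 2)) := by gcongr
    _ = 2 * Vd e u x * Real.sqrt 2 := by
        field_simp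
        rw [hs]; ring

lemma abs_pd_u_le (hu : Sol u) (i : Fin n) (x : Fin n → ℝ) : |pd i u x| ≤ 1 := by
  have h1 := hu.modica x
  have h2 := hu.psi_nonneg x
  have h5 := psi_le_one u x
  apply abs_le_of_sq_le_sq _ (by norm_num)
  have h4 : pd i u x ^ 2 ≤ ∑ j, pd j u x ^ 2 :=
    Finset.single_le_sum (f := fun j => pd j u x ^ 2) (fun _ _ => sq_nonneg _) (Finset.mem_univ i)
  unfold psi at h2 h5
  nlinarith only [h1, h4, h2, h5]

/-- `|∂² V_e| ≤ C V_e`. -/
theorem exists_V2_bound (n : ℕ) : ∃ C : ℝ, 0 < C ∧ ∀ u : (Fin n → ℝ) → ℝ, Sol u →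
    ∀ e : Fin n → ℝ, ∑ i, e i ^ 2 ≤ 1 → ∀ (j k : Fin n) (x : Fin n → ℝ),
      |pd j (pd k (Vd e u)) x| ≤ C * Vd e u x := by
  have hc := cH_pos n (K := 2) (by norm_num)
  have hG := cG_pos n (kH n)
  refine ⟨cG n (kH n) * (6 * cH n 2 + 6), by positivity, fun u hu e he j k x => ?_⟩
  have hV := nice_Vd hu e
  have hn := nice_u hu
  have hV0 := Vd_nonneg hu he
  have hexp : ∀ y, Vd e u y ≤ Vd e u x * Real.exp (kH n * ‖y - x‖) := fun y => by
    rw [mul_comm]; exact harnack_Vd hu he x y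
  have h0 : ∀ y, |pd k (Vd e u) y| ≤ ((6 * cH n 2 + 6) * Vd e u x)
      * Real.exp (kH n * ‖y - x‖) := by
    intro y
    have h1 := abs_pd_Vd_le hu he k y
    have h2 := hexp y
    have h3 := hV0 y
    calc |pd k (Vd e u) y| ≤ cH n 2 * Vd e u y := h1
      _ ≤ (6 * cH n 2 + 6) * Vd e u y := by
          apply mul_le_mul_of_nonneg_right _ h3; linarith
      _ ≤ (6 * cH n 2 + 6) * (Vd e u x * Real.exp (kH n * ‖y - x‖)) := by gcongr
      _ = _ := by ring
  have h1 : ∀ y, |H283.lap (pd k (Vd e u)) y| ≤ ((6 * cH n 2 + 6) * Vd e u x)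
      * Real.exp (kH n * ‖y - x‖) := by
    intro y
    rw [lap_pd hV]
    have e1 : H283.lap (Vd e u) = fun z => (3 * (u z * u z) - 1) * Vd e u z
        + (1 / Real.sqrt 2) * defi u z := by
      funext z; rw [lap_Vd hu]; ring
    have hA : Nice (fun z => 3 * (u z * u z) - 1) :=
      Nice.sub (Nice.cmul 3 (Nice.mul hn hn)) (Nice.const 1)
    have e2 : pd k (fun z => 3 * (u z * u z) - 1) y = 6 * u y * pd k u y := by
      rw [pd_sub ((Nice.cmul 3 (Nice.mul hn hn)).1 y) (by fun_prop), pd_const,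
        pd_cmul 3 (Nice.mul hn hn).1, pd_mul (hn.1 y) (hn.1 y)]
      ring
    rw [e1, pd_add ((Nice.mul hA hV).1 y) ((Nice.cmul _ (nice_defi hu)).1 y),
      pd_mul (hA.1 y) (hV.1 y), e2, pd_cmul _ (nice_defi hu).1]
    have h2 := abs_pd_Vd_le hu he k y
    have h3 := hV0 y
    have h4 := u_sq_le hu y
    have h5 : |u y| ≤ 1 := hu.bd y
    have h6 := abs_pd_u_le hu k y
    have h7 := abs_pd_defi_le hu k y
    have h8 := defi_div_le hu he y
    have t1 : |(3 * (u y * u y) - 1) * pd k (Vd e u) y| ≤ 2 * (cH n 2 * Vd e u y) := by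
      rw [abs_mul]
      have : |3 * (u y * u y) - 1| ≤ 2 := by
        rw [abs_le]; constructor <;> nlinarith only [h4, sq_nonneg (u y)]
      exact mul_le_mul this h2 (abs_nonneg _) (by norm_num)
    have t2 : |Vd e u y * (6 * u y * pd k u y)| ≤ 6 * Vd e u y := by
      rw [abs_mul, abs_mul, abs_mul, abs_of_nonneg h3, abs_of_pos (by norm_num : (0:ℝ) < 6)]
      have : |u y| * |pd k u y| ≤ 1 * 1 := mul_le_mul h5 h6 (abs_nonneg _) zero_le_one
      nlinarith only [this, h3]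
    have t3 : |1 / Real.sqrt 2 * pd k (defi u) y| ≤ 4 * cH n 2 * Vd e u y := by
      rw [abs_mul, abs_of_pos (by have := sqrt2_pos; positivity : (0:ℝ) < 1 / Real.sqrt 2)]
      calc 1 / Real.sqrt 2 * |pd k (defi u) y|
          ≤ 1 / Real.sqrt 2 * (2 * cH n 2 * defi u y) :=
            mul_le_mul_of_nonneg_left h7 (by positivity)
        _ = 2 * cH n 2 * (defi u y / Real.sqrt 2) := by ring
        _ ≤ 2 * cH n 2 * (2 * Vd e u y) := by gcongr
        _ = _ := by ring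
    have h9 : |(3 * (u y * u y) - 1) * pd k (Vd e u) y + Vd e u y * (6 * u y * pd k u y)
        + 1 / Real.sqrt 2 * pd k (defi u) y| ≤ (6 * cH n 2 + 6) * Vd e u y := by
      refine (abs_add_three _ _ _).trans ?_
      linarith
    refine h9.trans ?_
    calc (6 * cH n 2 + 6) * Vd e u y
        ≤ (6 * cH n 2 + 6) * (Vd e u x * Real.exp (kH n * ‖y - x‖)) := by
          have := hexp y; gcongr
      _ = _ := by ring
  have h2 := abs_pd_le_of_exp (hV.pd k) (kH_nonneg n) x h0 h1 j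
  refine h2.trans (le_of_eq ?_)
  ring

/-- Exact identity around `x`, `e = ν(x)`: `D = 4 V_e V_{-e} - Σ_i u_{t_i}²`, `t_i = P e_i`. -/
lemma defi_decomp (u : (Fin n → ℝ) → ℝ) (he : ∑ i, e i ^ 2 = 1 ∨ e = 0) (y : Fin n → ℝ) :
    defi u y = 4 * (Vd e u y * Vd (-e) u y)
      - ∑ i, dd (fun l => (if l = i then (1:ℝ) else 0) - e i * e l) u y ^ 2 := by
  have h1 : ∀ i, dd (fun l => (if l = i then (1:ℝ) else 0) - e i * e l) u y
      = pd i u y - e i * dd e u y := by
    intro i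
    unfold dd
    simp only [sub_mul, Finset.sum_sub_distrib, ite_mul, one_mul, zero_mul, Finset.sum_ite_eq',
      Finset.mem_univ, if_true]
    rw [Finset.mul_sum]
    congr 1
    refine Finset.sum_congr rfl fun l _ => ?_
    ring
  have h2 : ∑ i, dd (fun l => (if l = i then (1:ℝ) else 0) - e i * e l) u y ^ 2
      = ∑ i, pd i u y ^ 2 - dd e u y ^ 2 := by
    simp_rw [h1]
    have : ∀ i, (pd i u y - e i * dd e u y) ^ 2 = pd i u y ^ 2 - 2 * dd e u y * (e i * pd i u y)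
        + dd e u y ^ 2 * e i ^ 2 := fun i => by ring
    simp_rw [this, Finset.sum_add_distrib, Finset.sum_sub_distrib]
    rw [← Finset.mul_sum, ← Finset.mul_sum]
    have h3 : ∑ i, e i * pd i u y = dd e u y := rfl
    rw [h3]
    rcases he with he | he
    · rw [he]; ring
    · subst he
      have : dd (0 : Fin n → ℝ) u y = 0 := by unfold dd; simp
      rw [this]; ring
  rw [h2, Vd_mul_Vd_neg]
  unfold defi
  ring

lemma nu_unit_or_zero (u : (Fin n → ℝ) → ℝ) (x : Fin n → ℝ) :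
    ∑ i, H283.nu u x i ^ 2 = 1 ∨ H283.nu u x = 0 := by
  by_cases h : gw u x = 0
  · right; funext i; unfold H283.nu; simp [h]
  · left; exact nu_sq u x h

/-- **`|∂² D| ≤ C D` everywhere.** -/
theorem exists_defi2_bound (n : ℕ) : ∃ C : ℝ, 0 < C ∧ ∀ u : (Fin n → ℝ) → ℝ, Sol u →
    ∀ (j k : Fin n) (x : Fin n → ℝ), |pd j (pd k (defi u)) x| ≤ C * defi u x := by
  obtain ⟨C1, hC10, hC1⟩ := exists_V2_bound n
  obtain ⟨C2, hC20, hC2⟩ := exists_tang_bound n 1
  have hc := cH_pos n (K := 2) (by norm_num)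
  refine ⟨2 * C1 + 2 * cH n 2 ^ 2 + n * (2 * C2 ^ 2), by positivity, fun u hu j k x => ?_⟩
  set e := H283.nu u x with he
  have he' := nu_unit_or_zero u x
  rw [← he] at he'
  have he1 := nu_sq_le u x
  rw [← he] at he1
  have hn := nice_u hu
  have hV1 := nice_Vd hu e
  have hV2 := nice_Vd hu (-e)
  set T : Fin n → (Fin n → ℝ) := fun i l => (if l = i then (1:ℝ) else 0) - e i * e l with hT
  set A : Fin n → (Fin n → ℝ) → ℝ := fun i => dd (T i) u with hA
  have hAn : ∀ i, Nice (A i) := fun i => nice_dd hn (T i)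
  have hdec : defi u = fun y => 4 * (Vd e u y * Vd (-e) u y) - ∑ i, A i y * A i y := by
    funext y
    rw [defi_decomp u he' y]
    congr 1
    refine Finset.sum_congr rfl fun i _ => ?_
    rw [sq]
  have hP : Nice (fun y => 4 * (Vd e u y * Vd (-e) u y)) := Nice.cmul 4 (Nice.mul hV1 hV2)
  have hS : Nice (fun y => ∑ i, A i y * A i y) := Nice.sum _ fun i _ => Nice.mul (hAn i) (hAn i)
  -- `A i x = 0`
  have hA0 : ∀ i, A i x = 0 := by
    intro i
    rw [hA]
    simp only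
    rw [hT]
    have h1 : dd (fun l => (if l = i then (1:ℝ) else 0) - e i * e l) u x
        = pd i u x - e i * dd e u x := by
      unfold dd
      simp only [sub_mul, Finset.sum_sub_distrib, ite_mul, one_mul, zero_mul,
        Finset.sum_ite_eq', Finset.mem_univ, if_true]
      rw [Finset.mul_sum]
      congr 1
      refine Finset.sum_congr rfl fun l _ => ?_
      ring
    rw [h1, he, dd_nu, ← gw_mul_nu u x i]
    ring
  -- sizes of the tangential vectors
  have hT1 : ∀ i, ∑ l, T i l ^ 2 ≤ 1 := by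
    intro i
    have e2 : ∀ l, T i l ^ 2 = (if l = i then (1:ℝ) else 0) - 2 * (if l = i then e i * e l else 0)
        + e i ^ 2 * e l ^ 2 := by
      intro l; rw [hT]; simp only
      split_ifs <;> ring
    simp_rw [e2, Finset.sum_add_distrib, Finset.sum_sub_distrib]
    rw [← Finset.mul_sum, ← Finset.mul_sum]
    simp only [Finset.sum_ite_eq', Finset.mem_univ, if_true]
    nlinarith only [sq_nonneg (e i), mul_nonneg (sq_nonneg (e i)) (sub_nonneg.mpr he1)]
  have hT2 : ∀ i, ∑ l, T i l * H283.nu u x l = 0 := by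
    intro i
    rw [← he]
    have e2 : ∀ l, T i l * e l = (if l = i then e l else 0) - e i * e l ^ 2 := by
      intro l; rw [hT]; simp only
      split_ifs <;> ring
    simp_rw [e2, Finset.sum_sub_distrib]
    rw [← Finset.mul_sum]
    simp only [Finset.sum_ite_eq', Finset.mem_univ, if_true]
    rcases he' with h | h
    · rw [h]; ring
    · rw [h]; simp
  have hpA : ∀ i (l : Fin n), |pd l (A i) x| ≤ C2 * Real.sqrt (defi u x) := by
    intro i l
    have h1 := hC2 u hu x (T i) (hT1 i) (hT2 i) [l] (by simp) x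
    rw [sub_self, norm_zero, mul_zero, Real.exp_zero, mul_one] at h1
    exact h1
  -- derivatives
  have hk : pd k (defi u) = fun y => 4 * (Vd e u y * pd k (Vd (-e) u) y
      + Vd (-e) u y * pd k (Vd e u) y) - ∑ i, 2 * (A i y * pd k (A i) y) := by
    funext y
    rw [hdec, pd_sub (hP.1 y) (hS.1 y), pd_cmul 4 (Nice.mul hV1 hV2).1,
      pd_mul (hV1.1 y) (hV2.1 y), pd_sum Finset.univ (F := fun i y => A i y * A i y)
        (fun i _ => (Nice.mul (hAn i) (hAn i)).1 y)]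
    congr 1
    refine Finset.sum_congr rfl fun i _ => ?_
    rw [pd_mul ((hAn i).1 y) ((hAn i).1 y)]
    ring
  have hQ1 : Nice (fun y => Vd e u y * pd k (Vd (-e) u) y) := Nice.mul hV1 (hV2.pd k)
  have hQ2 : Nice (fun y => Vd (-e) u y * pd k (Vd e u) y) := Nice.mul hV2 (hV1.pd k)
  have hQ3 : ∀ i, Nice (fun y => A i y * pd k (A i) y) := fun i => Nice.mul (hAn i) ((hAn i).pd k)
  have hjk : pd j (pd k (defi u)) x = 4 * (Vd e u x * pd j (pd k (Vd (-e) u)) x
      + pd k (Vd (-e) u) x * pd j (Vd e u) x + (Vd (-e) u x * pd j (pd k (Vd e u)) x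
      + pd k (Vd e u) x * pd j (Vd (-e) u) x)) - ∑ i, 2 * (pd k (A i) x * pd j (A i) x) := by
    rw [hk, pd_sub ((Nice.cmul 4 (Nice.add hQ1 hQ2)).1 x)
      ((Nice.sum _ fun i _ => Nice.cmul 2 (hQ3 i)).1 x), pd_cmul 4 (Nice.add hQ1 hQ2).1,
      pd_add (hQ1.1 x) (hQ2.1 x), pd_mul (hV1.1 x) ((hV2.pd k).1 x),
      pd_mul (hV2.1 x) ((hV1.pd k).1 x),
      pd_sum Finset.univ (F := fun i y => 2 * (A i y * pd k (A i) y))
        (fun i _ => (Nice.cmul 2 (hQ3 i)).1 x)]
    congr 1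
    refine Finset.sum_congr rfl fun i _ => ?_
    rw [pd_cmul 2 (hQ3 i).1, pd_mul ((hAn i).1 x) (((hAn i).pd k).1 x), hA0 i]
    ring
  have a1 := Vd_nonneg hu he1 x
  have a2 := Vd_nonneg hu (neg_unit he1) x
  have hD : defi u x = 4 * (Vd e u x * Vd (-e) u x) := defi_eq_Vd u x
  have hD0 := hu.defi_nonneg x
  have b1 := hC1 u hu e he1 j k x
  have b2 := hC1 u hu (-e) (neg_unit he1) j k x
  have b3 := abs_pd_Vd_le hu he1 j x
  have b4 := abs_pd_Vd_le hu he1 k x
  have b5 := abs_pd_Vd_le hu (neg_unit he1) j x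
  have b6 := abs_pd_Vd_le hu (neg_unit he1) k x
  have t1 : |Vd e u x * pd j (pd k (Vd (-e) u)) x| ≤ C1 * (Vd e u x * Vd (-e) u x) := by
    rw [abs_mul, abs_of_nonneg a1]
    calc _ ≤ Vd e u x * (C1 * Vd (-e) u x) := mul_le_mul_of_nonneg_left b2 a1
      _ = _ := by ring
  have t2 : |pd k (Vd (-e) u) x * pd j (Vd e u) x| ≤ cH n 2 ^ 2 * (Vd e u x * Vd (-e) u x) := by
    rw [abs_mul]
    calc _ ≤ (cH n 2 * Vd (-e) u x) * (cH n 2 * Vd e u x) :=
          mul_le_mul b6 b3 (abs_nonneg _) (mul_nonneg hc.le a2)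
      _ = _ := by ring
  have t3 : |Vd (-e) u x * pd j (pd k (Vd e u)) x| ≤ C1 * (Vd e u x * Vd (-e) u x) := by
    rw [abs_mul, abs_of_nonneg a2]
    calc _ ≤ Vd (-e) u x * (C1 * Vd e u x) := mul_le_mul_of_nonneg_left b1 a2
      _ = _ := by ring
  have t4 : |pd k (Vd e u) x * pd j (Vd (-e) u) x| ≤ cH n 2 ^ 2 * (Vd e u x * Vd (-e) u x) := by
    rw [abs_mul]
    calc _ ≤ (cH n 2 * Vd e u x) * (cH n 2 * Vd (-e) u x) :=
          mul_le_mul b4 b5 (abs_nonneg _) (mul_nonneg hc.le a1)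
      _ = _ := by ring
  have t5 : |∑ i, 2 * (pd k (A i) x * pd j (A i) x)| ≤ n * (2 * C2 ^ 2 * defi u x) := by
    refine (Finset.abs_sum_le_sum_abs _ _).trans ?_
    have : ∀ i ∈ (Finset.univ : Finset (Fin n)), |2 * (pd k (A i) x * pd j (A i) x)|
        ≤ 2 * C2 ^ 2 * defi u x := by
      intro i _
      rw [abs_mul, abs_mul, abs_of_pos (by norm_num : (0:ℝ) < 2)]
      have h1 : |pd k (A i) x| * |pd j (A i) x|
          ≤ (C2 * Real.sqrt (defi u x)) * (C2 * Real.sqrt (defi u x)) :=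
        mul_le_mul (hpA i k) (hpA i j) (abs_nonneg _) (by positivity)
      have h2 : (C2 * Real.sqrt (defi u x)) * (C2 * Real.sqrt (defi u x))
          = C2 ^ 2 * defi u x := by
        rw [mul_mul_mul_comm, Real.mul_self_sqrt hD0]; ring
      linarith
    refine (Finset.sum_le_sum this).trans (le_of_eq ?_)
    rw [Finset.sum_const, Finset.card_univ, Fintype.card_fin, nsmul_eq_mul]
  rw [hjk]
  have t6 : |4 * (Vd e u x * pd j (pd k (Vd (-e) u)) x
      + pd k (Vd (-e) u) x * pd j (Vd e u) x + (Vd (-e) u x * pd j (pd k (Vd e u)) x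
      + pd k (Vd e u) x * pd j (Vd (-e) u) x))|
      ≤ (2 * C1 + 2 * cH n 2 ^ 2) * defi u x := by
    rw [abs_mul, abs_of_pos (by norm_num : (0:ℝ) < 4), hD]
    have s1 := (abs_add_le (Vd e u x * pd j (pd k (Vd (-e) u)) x
      + pd k (Vd (-e) u) x * pd j (Vd e u) x) (Vd (-e) u x * pd j (pd k (Vd e u)) x
      + pd k (Vd e u) x * pd j (Vd (-e) u) x))
    have s2 := abs_add_le (Vd e u x * pd j (pd k (Vd (-e) u)) x)
      (pd k (Vd (-e) u) x * pd j (Vd e u) x)
    have s3 := abs_add_le (Vd (-e) u x * pd j (pd k (Vd e u)) x)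
      (pd k (Vd e u) x * pd j (Vd (-e) u) x)
    nlinarith only [s1, s2, s3, t1, t2, t3, t4]
  have t7 := abs_sub (4 * (Vd e u x * pd j (pd k (Vd (-e) u)) x
      + pd k (Vd (-e) u) x * pd j (Vd e u) x + (Vd (-e) u x * pd j (pd k (Vd e u)) x
      + pd k (Vd e u) x * pd j (Vd (-e) u) x))) (∑ i, 2 * (pd k (A i) x * pd j (A i) x))
  calc _ ≤ _ := t7
    _ ≤ (2 * C1 + 2 * cH n 2 ^ 2) * defi u x + n * (2 * C2 ^ 2 * defi u x) := add_le_add t6 t5
    _ = _ := by ring

end general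

end Vale.Agent.P134.H283
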