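import Vale.Agent.P134.H283.Q

set_option linter.all false

/-! Interaction of sheets (H4) and the behaviour along normal rays (H5), in the notation of
`LI/Defs`. -/

namespace Vale.Agent.P134.H283

open Vale.Agent.P134 Vale.Agent.P134.SM Vale.Agent.P134.LI MeasureTheory Filter Topology

variable {u F : R3 → ℝ} {x y z e t v : R3} {i j k q : Fin 3} {b K M r C c : ℝ}

lemma eno_neg {n : ℕ} (v : Fin n → ℝ) : eno (-v) = eno v := by
  unfold eno esq
  simp

/-- Gronwall along a segment. -/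
lemma ray_gronwall {n : ℕ} {F : (Fin n → ℝ) → ℝ} (hF : Differentiable ℝ F) (x v : Fin n → ℝ)
    {c : ℝ} (h : ∀ s : ℝ, dd v F (x + s • v) ≤ c * F (x + s • v)) :
    F (x + v) ≤ Real.exp c * F x := by
  set G : ℝ → ℝ := fun t => F (x + t • v) * Real.exp (-(c * t)) with hG
  have hGd : ∀ s, HasDerivAt G ((dd v F (x + s • v) - c * F (x + s • v)) * Real.exp (-(c * s))) s := by
    intro s
    have h1 : HasDerivAt (fun s : ℝ => -(c * s)) (-c) s := by
      have := ((hasDerivAt_id s).const_mul c).neg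
      refine this.congr_deriv ?_
      simp
    have h2 := (hasDerivAt_dd hF x v s).mul h1.exp
    refine h2.congr_deriv ?_
    ring
  have hanti : Antitone G := by
    apply antitone_of_deriv_nonpos (fun s => (hGd s).differentiableAt)
    intro s
    rw [(hGd s).deriv]
    exact mul_nonpos_of_nonpos_of_nonneg (by linarith [h s]) (Real.exp_pos _).le
  have h := hanti (zero_le_one (α := ℝ))
  simp only [hG] at h
  have e0 : F (x + (0:ℝ) • v) * Real.exp (-(c * 0)) = F x := by simp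
  rw [e0, one_smul, mul_one] at h
  calc F (x + v) = Real.exp c * (F (x + v) * Real.exp (-c)) := by
        rw [mul_comm (F (x + v)), ← mul_assoc, ← Real.exp_add]; simp
    _ ≤ Real.exp c * F x := mul_le_mul_of_nonneg_left h (Real.exp_pos _).le

lemma abs_dd_le_eno {n : ℕ} {u : (Fin n → ℝ) → ℝ} (hu : Sol u) (v z : Fin n → ℝ) :
    |dd v u z| ≤ eno v * (psi u z / Real.sqrt 2) := by
  have h1 : dd v u z ^ 2 ≤ esq v * ∑ i, pd i u z ^ 2 := by
    have := Finset.sum_mul_sq_le_sq_mul_sq Finset.univ v (fun i => pd i u z)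
    exact this
  have h2 := hu.modica z
  have h3 := hu.psi_nonneg z
  apply abs_le_of_sq_le_sq _ (mul_nonneg (eno_nonneg v) (div_nonneg h3 sqrt2_pos.le))
  rw [mul_pow, eno_sq, div_pow, sqrt2_sq]
  have h4 := esq_nonneg v
  unfold psi
  have : ∑ i, pd i u z ^ 2 ≤ (1 - u z ^ 2) ^ 2 / 2 := by linarith
  exact h1.trans (mul_le_mul_of_nonneg_left this h4)

/-- `f(y) ≤ e^{√2|x-y|} f(x)`, sharp rate. -/
theorem ff_le (hu : Sol u) (x y : R3) :
    ff u y ≤ Real.exp (Real.sqrt 2 * eno (y - x)) * ff u x := by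
  have h := ray_gronwall (F := ff u) (ff_nice hu).1 x (y - x)
    (c := Real.sqrt 2 * eno (y - x)) (fun s => by
      set z := x + s • (y - x)
      have e1 : dd (y - x) (ff u) z = -(Real.sqrt 2 * u z * dd (y - x) u z) := by
        unfold dd
        rw [Finset.mul_sum, ← Finset.sum_neg_distrib]
        refine Finset.sum_congr rfl fun i _ => ?_
        rw [pd_ff hu]; ring
      have h1 := abs_dd_le_eno hu (y - x) z
      have h2 : |u z| ≤ 1 := hu.bd z
      rw [e1]
      refine (le_abs_self _).trans ?_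
      rw [abs_neg, abs_mul, abs_mul, abs_of_pos sqrt2_pos]
      have h3 : |u z| * |dd (y - x) u z| ≤ 1 * (eno (y - x) * ff u z) :=
        mul_le_mul h2 h1 (abs_nonneg _) zero_le_one
      calc Real.sqrt 2 * |u z| * |dd (y - x) u z| = Real.sqrt 2 * (|u z| * |dd (y - x) u z|) := by ring
        _ ≤ Real.sqrt 2 * (1 * (eno (y - x) * ff u z)) :=
            mul_le_mul_of_nonneg_left h3 sqrt2_pos.le
        _ = _ := by ring)
  rw [add_sub_cancel] at h
  exact h

theorem le_ff (hu : Sol u) (x y : R3) :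
    Real.exp (-(Real.sqrt 2 * eno (y - x))) * ff u x ≤ ff u y := by
  have h := ff_le hu y x
  rw [show x - y = -(y - x) by abel, eno_neg] at h
  calc Real.exp (-(Real.sqrt 2 * eno (y - x))) * ff u x
      ≤ Real.exp (-(Real.sqrt 2 * eno (y - x)))
        * (Real.exp (Real.sqrt 2 * eno (y - x)) * ff u y) :=
        mul_le_mul_of_nonneg_left h (Real.exp_pos _).le
    _ = ff u y := by rw [← mul_assoc, ← Real.exp_add]; simp

/-- **(H2)** Yukawa lower bound for `V_e`. -/
theorem yukawa_Vd {n m : ℕ} (hnm : n ≤ 2 * m) {u : (Fin n → ℝ) → ℝ} (hu : Sol u)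
    {e : Fin n → ℝ} (he : ∑ i, e i ^ 2 ≤ 1) (x y : Fin n → ℝ) :
    cY n m * (Real.exp (-(Real.sqrt 2 * eno (y - x))) / (1 + eno (y - x)) ^ m) * Vd e u y
      ≤ Vd e u x :=
  yukawa hnm (nice_Vd hu e) (Vd_nonneg hu he) (abs_lap_Vd_le hu he) x y

lemma dd_phi (hu : Sol u) (hlt : ∀ x, |u x| < 1) (e x : R3) :
    dd e (phi u) x = dd e u x / ff u x := by
  unfold dd
  rw [Finset.sum_div]
  refine Finset.sum_congr rfl fun i _ => ?_
  rw [pd_phi hu hlt]; ring

/-- `1 - e·∇φ = 2 V_{-e}/f`. -/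
lemma one_sub_dd_phi (hu : Sol u) (hlt : ∀ x, |u x| < 1) (e x : R3) :
    1 - dd e (phi u) x = 2 * Vd (-e) u x / ff u x := by
  have hf := (ff_pos hlt x).ne'
  rw [dd_phi hu hlt]
  unfold Vd
  rw [dd_neg_left, ← ff_eq]
  field_simp
  ring

lemma nn_sq_le (hu : Sol u) (hlt : ∀ x, |u x| < 1) (x : R3) : ∑ i, nn u x i ^ 2 ≤ 1 := by
  rw [nn_eq hu hlt]; exact nu_sq_le u x

lemma nn_sq (hu : Sol u) (hlt : ∀ x, |u x| < 1) (h : 0 < rr u x) : ∑ i, nn u x i ^ 2 = 1 := by
  rw [nn_eq hu hlt]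
  apply nu_sq
  have h1 : gw u x = wn u x := rfl
  rw [h1, wn_eq hu hlt]
  have := ff_pos hlt x
  positivity

lemma dd_nn (hu : Sol u) (hlt : ∀ x, |u x| < 1) (x : R3) : dd (nn u x) (phi u) x = rr u x := by
  have hf := (ff_pos hlt x).ne'
  rw [dd_phi hu hlt, nn_eq hu hlt, dd_nu]
  have h1 : gw u x = wn u x := rfl
  rw [h1, wn_eq hu hlt]; field_simp

lemma pd_phi_eq (hu : Sol u) (hlt : ∀ x, |u x| < 1) (i : Fin 3) (x : R3) :
    pd i (phi u) x = rr u x * nn u x i := by
  have hf := (ff_pos hlt x).ne'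
  rw [pd_phi hu hlt, nn_eq hu hlt]
  have h1 := gw_mul_nu u x i
  have h2 : gw u x = ff u x * rr u x := wn_eq hu hlt x
  rw [h2] at h1
  rw [← h1]; field_simp

/-- **(H4)** Interaction: the discrepancy at `x` sees the change of direction at `y`. -/
theorem interaction (hu : Sol u) (hlt : ∀ x, |u x| < 1) (x y : R3) (hx : 0 < rr u x) :
    cY 3 2 / 4 * (Real.exp (-(Real.sqrt 2 * eno (y - x))) / (1 + eno (y - x)) ^ 2)
      * (ff u y / ff u x) * esq (nn u x - nn u y) ≤ qq u x := by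
  set e := nn u x with he
  have hfx := ff_pos hlt x
  have hfy := ff_pos hlt y
  have he2 := nn_sq_le hu hlt x
  have he1 := nn_sq hu hlt hx
  rw [← he] at he1 he2
  have hV := yukawa_Vd (n := 3) (m := 2) (by norm_num) hu (neg_unit he2) x y
  set E := Real.exp (-(Real.sqrt 2 * eno (y - x))) / (1 + eno (y - x)) ^ 2 with hE
  have hE0 : 0 ≤ E := by have := eno_nonneg (y - x); positivity
  have hc := cY_pos 3 2
  -- `V_{-e}(y)`
  have h1 : esq (e - nn u y) / 4 ≤ 1 - dd e (phi u) y := by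
    have e1 : dd e (phi u) y = rr u y * ∑ i, e i * nn u y i := by
      unfold dd
      rw [Finset.mul_sum]
      refine Finset.sum_congr rfl fun i _ => ?_
      rw [pd_phi_eq hu hlt]; ring
    have e2 : esq (e - nn u y) = 1 - 2 * ∑ i, e i * nn u y i + ∑ i, nn u y i ^ 2 := by
      unfold esq
      rw [← he1, Finset.mul_sum, ← Finset.sum_sub_distrib, ← Finset.sum_add_distrib]
      refine Finset.sum_congr rfl fun i _ => ?_
      simp only [Pi.sub_apply]; ring
    have h2 := nn_sq_le hu hlt y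
    have h3 := rr_nonneg u y
    have h4 := rr_le_one hu hlt y
    have h5 : (∑ i, e i * nn u y i) ^ 2 ≤ 1 := by
      have := Finset.sum_mul_sq_le_sq_mul_sq Finset.univ e (nn u y)
      rw [he1, one_mul] at this
      linarith
    rw [e1, e2]
    set p := ∑ i, e i * nn u y i
    have h6 : p ≤ 1 := by nlinarith only [h5]
    have h7 : -1 ≤ p := by nlinarith only [h5]
    rcases le_total 0 p with hp | hp
    · nlinarith only [h2, h4, h6, hp, mul_le_mul_of_nonneg_right h4 hp]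
    · nlinarith only [h2, h3, h7, hp, mul_nonneg h3 (neg_nonneg.mpr hp)]
  rw [one_sub_dd_phi hu hlt] at h1
  have h2 : esq (e - nn u y) / 8 * ff u y ≤ Vd (-e) u y := by
    rw [le_div_iff₀ hfy] at h1
    linarith
  -- `q(x)`
  have h3 : qq u x ≥ 2 * Vd (-e) u x / ff u x := by
    rw [← one_sub_dd_phi hu hlt, he, dd_nn hu hlt]
    exact (one_sub_rr hu hlt x).2
  have h4 : cY 3 2 * E * (esq (e - nn u y) / 8 * ff u y) ≤ Vd (-e) u x :=
    (mul_le_mul_of_nonneg_left h2 (by positivity)).trans hV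
  calc cY 3 2 / 4 * E * (ff u y / ff u x) * esq (e - nn u y)
      = 2 * (cY 3 2 * E * (esq (e - nn u y) / 8 * ff u y)) / ff u x := by
        field_simp; ring
    _ ≤ 2 * Vd (-e) u x / ff u x := by gcongr
    _ ≤ qq u x := h3

lemma xt_eq (u : R3 → ℝ) (x : R3) (t : ℝ) : xt u x t = x + t • nn u x := by
  funext i; unfold xt; simp

lemma eno_xt (hu : Sol u) (hlt : ∀ x, |u x| < 1) (h : 0 < rr u x) (t : ℝ) :
    eno (xt u x t - x) = |t| := by
  have h1 : xt u x t - x = t • nn u x := by rw [xt_eq]; abel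
  have h2 : esq (nn u x) = 1 := nn_sq hu hlt h
  unfold eno
  rw [h1, esq_smul, h2, mul_one, Real.sqrt_sq_eq_abs]

lemma phi_differentiable (hu : Sol u) (hlt : ∀ x, |u x| < 1) : Differentiable ℝ (phi u) := by
  intro x
  have hd : DifferentiableAt ℝ u x := (hu.c2.differentiable (by norm_num)) x
  obtain ⟨p1, p2⟩ := pm_pos hlt x
  have d1 : DifferentiableAt ℝ (fun y => 1 + u y) x := hd.const_add 1
  have d2 : DifferentiableAt ℝ (fun y => 1 - u y) x := hd.const_sub 1
  exact ((d1.log p1.ne').sub (d2.log p2.ne')).const_mul _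

lemma hasDerivAt_phi_ray (hu : Sol u) (hlt : ∀ x, |u x| < 1) (x : R3) (t : ℝ) :
    HasDerivAt (fun s => phi u (xt u x s)) (dd (nn u x) (phi u) (xt u x t)) t := by
  have e : (fun s => phi u (xt u x s)) = fun s : ℝ => phi u (x + s • nn u x) := by
    funext s; rw [xt_eq]
  rw [e, xt_eq]
  exact hasDerivAt_dd (phi_differentiable hu hlt) x (nn u x) t

/-- **(H5)** Along the normal ray through `x`:
`c e^{-C|t|} q(x) ≤ 1 - n(x)·∇φ(x+tn) ≤ C (1+|t|)² e^{2√2|t|} q(x)`. -/
theorem exists_ray : ∃ C : ℝ, 1 ≤ C ∧ ∀ u : R3 → ℝ, Sol u → (∀ x, |u x| < 1) → ∀ x : R3,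
    0 < rr u x → ∀ t : ℝ,
    1 / 2 * Real.exp (-(C * |t|)) * qq u x ≤ 1 - dd (nn u x) (phi u) (xt u x t) ∧
    1 - dd (nn u x) (phi u) (xt u x t)
      ≤ C * (1 + |t|) ^ 2 * Real.exp (2 * Real.sqrt 2 * |t|) * qq u x := by
  have hc := cY_pos 3 2
  have hk := kH_nonneg 3
  have hs := sqrt2_pos
  refine ⟨(cY 3 2)⁻¹ + kH 3 + Real.sqrt 2 + 1, by
    have : 0 < (cY 3 2)⁻¹ := by positivity
    linarith, fun u hu hlt x hx t => ?_⟩
  set e := nn u x with he
  set y := xt u x t with hy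
  have hci : 0 < (cY 3 2)⁻¹ := by positivity
  have hfx := ff_pos hlt x
  have hfy := ff_pos hlt y
  have he2 := nn_sq_le hu hlt x
  rw [← he] at he2
  have hL : eno (y - x) = |t| := eno_xt hu hlt hx t
  have hL' : eno (x - y) = |t| := by rw [show x - y = -(y - x) by abel, eno_neg, hL]
  have ht := abs_nonneg t
  have hq0 := qq_nonneg hu hlt x
  obtain ⟨hq1, hq2⟩ := one_sub_rr hu hlt x
  have hVx : 1 - rr u x = 2 * Vd (-e) u x / ff u x := by
    rw [← one_sub_dd_phi hu hlt, he, dd_nn hu hlt]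
  have hVx0 := Vd_nonneg hu (neg_unit he2) x
  have hVy0 := Vd_nonneg hu (neg_unit he2) y
  rw [one_sub_dd_phi hu hlt]
  constructor
  · -- lower bound
    have h1 := harnack_Vd hu (neg_unit he2) y x
    have h2 : ‖x - y‖ ≤ |t| := by rw [← hL']; exact norm_le_eno _
    have h3 : Vd (-e) u x ≤ Real.exp (kH 3 * |t|) * Vd (-e) u y := by
      refine h1.trans (mul_le_mul_of_nonneg_right (Real.exp_le_exp.mpr ?_) hVy0)
      exact mul_le_mul_of_nonneg_left h2 (kH_nonneg 3)
    have h4 := ff_le hu x y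
    rw [hL] at h4
    have h5 : qq u x / 4 * ff u x ≤ Vd (-e) u x := by
      rw [hVx, div_le_div_iff₀ (by norm_num) hfx] at hq1
      linarith
    have h6 : Real.exp (-(kH 3 * |t|)) * (qq u x / 4 * ff u x) ≤ Vd (-e) u y := by
      calc Real.exp (-(kH 3 * |t|)) * (qq u x / 4 * ff u x)
          ≤ Real.exp (-(kH 3 * |t|)) * (Real.exp (kH 3 * |t|) * Vd (-e) u y) :=
            mul_le_mul_of_nonneg_left (h5.trans h3) (Real.exp_pos _).le
        _ = Vd (-e) u y := by rw [← mul_assoc, ← Real.exp_add]; simp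
    rw [le_div_iff₀ hfy]
    have h7 : Real.exp (-(((cY 3 2)⁻¹ + kH 3 + Real.sqrt 2 + 1) * |t|))
        ≤ Real.exp (-(kH 3 * |t|)) * Real.exp (-(Real.sqrt 2 * |t|)) := by
      rw [← Real.exp_add]
      apply Real.exp_le_exp.mpr
      nlinarith only [ht, mul_nonneg hci.le ht]
    calc 1 / 2 * Real.exp (-(((cY 3 2)⁻¹ + kH 3 + Real.sqrt 2 + 1) * |t|)) * qq u x * ff u y
        ≤ 1 / 2 * (Real.exp (-(kH 3 * |t|)) * Real.exp (-(Real.sqrt 2 * |t|))) * qq u x
          * (Real.exp (Real.sqrt 2 * |t|) * ff u x) := by gcongr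
      _ = 2 * (Real.exp (-(kH 3 * |t|)) * (qq u x / 4 * ff u x))
          * (Real.exp (-(Real.sqrt 2 * |t|)) * Real.exp (Real.sqrt 2 * |t|)) := by ring
      _ = 2 * (Real.exp (-(kH 3 * |t|)) * (qq u x / 4 * ff u x)) := by
          rw [← Real.exp_add]; simp
      _ ≤ 2 * Vd (-e) u y := by linarith
  · -- upper bound
    have h1 := yukawa_Vd (n := 3) (m := 2) (by norm_num) hu (neg_unit he2) x y
    rw [hL] at h1
    have h2 := le_ff hu x y
    rw [hL] at h2
    have h3 : Vd (-e) u x ≤ qq u x / 2 * ff u x := by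
      rw [hVx, div_le_iff₀ hfx] at hq2
      linarith
    have h4 : Vd (-e) u y ≤ (cY 3 2)⁻¹ * ((1 + |t|) ^ 2 * Real.exp (Real.sqrt 2 * |t|))
        * Vd (-e) u x := by
      have h5 : Vd (-e) u y = (cY 3 2)⁻¹ * ((1 + |t|) ^ 2 * Real.exp (Real.sqrt 2 * |t|))
          * (cY 3 2 * (Real.exp (-(Real.sqrt 2 * |t|)) / (1 + |t|) ^ 2) * Vd (-e) u y) := by
        have h6 : Real.exp (Real.sqrt 2 * |t|) * Real.exp (-(Real.sqrt 2 * |t|)) = 1 := by
          rw [← Real.exp_add]; simp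
        have h7 : (1 + |t|) ^ 2 ≠ 0 := by positivity
        generalize Real.exp (-(Real.sqrt 2 * |t|)) = E2 at h6 ⊢
        generalize Real.exp (Real.sqrt 2 * |t|) = E1 at h6 ⊢
        field_simp
        linear_combination (-Vd (-e) u y) * h6
      rw [h5]
      exact mul_le_mul_of_nonneg_left h1 (by positivity)
    rw [div_le_iff₀ hfy]
    have h8 : Real.exp (2 * Real.sqrt 2 * |t|) * Real.exp (-(Real.sqrt 2 * |t|))
        = Real.exp (Real.sqrt 2 * |t|) := by
      rw [← Real.exp_add]; congr 1; ring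
    calc 2 * Vd (-e) u y ≤ 2 * ((cY 3 2)⁻¹ * ((1 + |t|) ^ 2 * Real.exp (Real.sqrt 2 * |t|))
          * (qq u x / 2 * ff u x)) := by
          have := h4.trans (mul_le_mul_of_nonneg_left h3
            (by positivity : 0 ≤ (cY 3 2)⁻¹ * ((1 + |t|) ^ 2 * Real.exp (Real.sqrt 2 * |t|))))
          linarith
      _ = (cY 3 2)⁻¹ * (1 + |t|) ^ 2 * Real.exp (2 * Real.sqrt 2 * |t|) * qq u x
          * (Real.exp (-(Real.sqrt 2 * |t|)) * ff u x) := by
          rw [← h8]; ring
      _ ≤ ((cY 3 2)⁻¹ + kH 3 + Real.sqrt 2 + 1) * (1 + |t|) ^ 2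
          * Real.exp (2 * Real.sqrt 2 * |t|) * qq u x * ff u y := by
          apply mul_le_mul _ h2 (by positivity) (by positivity)
          gcongr
          linarith

end Vale.Agent.P134.H283
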