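import Vale.Agent.P134.H283.Low
import Vale.Agent.P134.H283.Tang
import Vale.Agent.P134.LI.Defs

set_option linter.all false

/-! The Harnack estimates in the notation of `LI/Defs`: `φ = √2 artanh u`, `q = 1 - |∇φ|²`,
`n = ∇φ/|∇φ|`. -/

namespace Vale.Agent.P134.H283

open Vale.Agent.P134 Vale.Agent.P134.SM Vale.Agent.P134.LI MeasureTheory Filter Topology

variable {u : R3 → ℝ} {x y z e t : R3} {i j k q : Fin 3} {b K M r C : ℝ}

lemma pm_pos (hlt : ∀ x, |u x| < 1) (x : R3) : 0 < 1 + u x ∧ 0 < 1 - u x := by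
  have := abs_lt.mp (hlt x)
  constructor <;> linarith

lemma psi_pos (hlt : ∀ x, |u x| < 1) (x : R3) : 0 < psi u x := by
  obtain ⟨h1, h2⟩ := pm_pos hlt x
  have : psi u x = (1 + u x) * (1 - u x) := by unfold psi; ring
  rw [this]; positivity

lemma ff_eq (u : R3 → ℝ) (x : R3) : ff u x = psi u x / Real.sqrt 2 := rfl

lemma ff_pos (hlt : ∀ x, |u x| < 1) (x : R3) : 0 < ff u x :=
  div_pos (psi_pos hlt x) sqrt2_pos

lemma ff_sq (u : R3 → ℝ) (x : R3) : ff u x ^ 2 = psi u x ^ 2 / 2 := by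
  rw [ff_eq, div_pow, sqrt2_sq]

lemma pd_phi (hu : Sol u) (hlt : ∀ x, |u x| < 1) (i : Fin 3) (x : R3) :
    pd i (phi u) x = pd i u x / ff u x := by
  have hd : DifferentiableAt ℝ u x := (hu.c2.differentiable (by norm_num)) x
  obtain ⟨p1, p2⟩ := pm_pos hlt x
  have d1 : DifferentiableAt ℝ (fun y => 1 + u y) x := hd.const_add 1
  have d2 : DifferentiableAt ℝ (fun y => 1 - u y) x := hd.const_sub 1
  have e1 : pd i (fun y => 1 + u y) x = pd i u x := by
    rw [pd_add (by fun_prop) hd, pd_const, zero_add]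
  have e2 : pd i (fun y => 1 - u y) x = - pd i u x := by
    rw [pd_sub (by fun_prop) hd, pd_const, zero_sub]
  have d3 : DifferentiableAt ℝ (fun y => Real.log (1 + u y)) x := d1.log p1.ne'
  have d4 : DifferentiableAt ℝ (fun y => Real.log (1 - u y)) x := d2.log p2.ne'
  have e0 : phi u = fun y => Real.sqrt 2 / 2 * (Real.log (1 + u y) - Real.log (1 - u y)) := rfl
  rw [e0, pd_mul (f := fun _ => Real.sqrt 2 / 2)
    (g := fun y => Real.log (1 + u y) - Real.log (1 - u y)) (by fun_prop) (d3.fun_sub d4), pd_const,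
    pd_sub d3 d4, pd_comp (h := Real.log) (Real.differentiableAt_log p1.ne') d1,
    pd_comp (h := Real.log) (Real.differentiableAt_log p2.ne') d2, e1, e2,
    Real.deriv_log, Real.deriv_log]
  have p3 : psi u x = (1 + u x) * (1 - u x) := by unfold psi; ring
  rw [ff_eq, p3]
  have hs := sqrt2_pos.ne'
  field_simp
  ring

lemma ff_nice (hu : Sol u) : Nice (ff u) := by
  have e : ff u = fun y => (1 / Real.sqrt 2) * psi u y := by
    funext y; rw [ff_eq]; ring
  rw [e]
  exact Nice.cmul _ (nice_psi hu)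

lemma pd_ff (hu : Sol u) (i : Fin 3) (x : R3) :
    pd i (ff u) x = -(Real.sqrt 2 * u x * pd i u x) := by
  have e : ff u = fun y => (1 / Real.sqrt 2) * psi u y := by
    funext y; rw [ff_eq]; ring
  rw [e, pd_cmul _ (nice_psi hu).1, hu.pd_psi]
  have hs := sqrt2_pos.ne'
  have h2 := sqrt2_sq
  field_simp
  rw [h2]

lemma gs_phi (hu : Sol u) (hlt : ∀ x, |u x| < 1) (x : R3) :
    gs (phi u) x = gs u x / ff u x ^ 2 := by
  unfold gs
  rw [Finset.sum_div]
  refine Finset.sum_congr rfl fun i _ => ?_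
  rw [pd_phi hu hlt, div_pow]

/-- `D = f² q`. -/
lemma defi_eq_qq (hu : Sol u) (hlt : ∀ x, |u x| < 1) (x : R3) :
    defi u x = ff u x ^ 2 * qq u x := by
  have h := (ff_pos hlt x).ne'
  unfold qq
  rw [gs_phi hu hlt]
  have e : defi u x = ff u x ^ 2 - gs u x := by rw [ff_sq]; rfl
  rw [e]; field_simp

lemma qq_nonneg (hu : Sol u) (hlt : ∀ x, |u x| < 1) (x : R3) : 0 ≤ qq u x := by
  have h := hu.defi_nonneg x
  rw [defi_eq_qq hu hlt] at h
  exact nonneg_of_mul_nonneg_right h (by have := ff_pos hlt x; positivity)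

lemma qq_le_one (u : R3 → ℝ) (x : R3) : qq u x ≤ 1 := by
  unfold qq
  have := gs_nonneg (phi u) x
  linarith

lemma rr_nonneg (u : R3 → ℝ) (x : R3) : 0 ≤ rr u x := wn_nonneg _ _

lemma rr_sq (u : R3 → ℝ) (x : R3) : rr u x ^ 2 = 1 - qq u x := by
  unfold rr qq
  rw [wn_sq]; ring

lemma rr_le_one (hu : Sol u) (hlt : ∀ x, |u x| < 1) (x : R3) : rr u x ≤ 1 := by
  have h1 := rr_sq u x
  have h2 := qq_nonneg hu hlt x
  have h3 := rr_nonneg u x
  nlinarith only [h1, h2, h3]

lemma rr_ge_half (h : qq u x ≤ 3 / 4) : 1 / 2 ≤ rr u x := by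
  have h1 := rr_sq u x
  have h3 := rr_nonneg u x
  nlinarith only [h1, h, h3]

/-- `1 - q/1 ≤ |∇φ|`, more precisely `1 - |∇φ| ∈ [q/2, q]`. -/
lemma one_sub_rr (hu : Sol u) (hlt : ∀ x, |u x| < 1) (x : R3) :
    qq u x / 2 ≤ 1 - rr u x ∧ 1 - rr u x ≤ qq u x := by
  have h1 := rr_sq u x
  have h2 := rr_le_one hu hlt x
  have h3 := rr_nonneg u x
  constructor <;> nlinarith only [h1, h2, h3]

lemma wn_phi (hu : Sol u) (hlt : ∀ x, |u x| < 1) (x : R3) :
    wn (phi u) x = wn u x / ff u x := by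
  unfold wn
  rw [gs_phi hu hlt, Real.sqrt_div (gs_nonneg u x), Real.sqrt_sq (ff_pos hlt x).le]

lemma wn_eq (hu : Sol u) (hlt : ∀ x, |u x| < 1) (x : R3) : wn u x = ff u x * rr u x := by
  have h := (ff_pos hlt x).ne'
  unfold rr
  rw [wn_phi hu hlt]; field_simp

/-- The normals of `φ` and `u` agree. -/
lemma nu_phi (hu : Sol u) (hlt : ∀ x, |u x| < 1) (i : Fin 3) : SM.nu (phi u) i = SM.nu u i := by
  funext x
  have h := (ff_pos hlt x).ne'
  unfold SM.nu
  rw [pd_phi hu hlt, wn_phi hu hlt]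
  by_cases h0 : wn u x = 0
  · rw [h0]; simp
  · field_simp

lemma nn_eq (hu : Sol u) (hlt : ∀ x, |u x| < 1) (x : R3) : nn u x = H283.nu u x := by
  funext i
  unfold nn
  rw [nu_phi hu hlt]; rfl

lemma hh_eq (hu : Sol u) (hlt : ∀ x, |u x| < 1) (x : R3) : hh u x = mc u x := by
  unfold hh mc
  refine Finset.sum_congr rfl fun i _ => ?_
  rw [nu_phi hu hlt]

lemma aa_eq (hu : Sol u) (hlt : ∀ x, |u x| < 1) (i j : Fin 3) (x : R3) :
    aa u i j x = sff u i j x := by
  unfold aa sff nd
  simp_rw [nu_phi hu hlt]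
  congr 2
  refine Finset.sum_congr rfl fun k _ => ?_
  ring

lemma a2_eq (hu : Sol u) (hlt : ∀ x, |u x| < 1) (x : R3) : a2 u x = an u x := by
  unfold a2 an
  simp_rw [aa_eq hu hlt]

/-! ### The function `q` -/

/-- The constant of the Harnack inequality for `q`. -/
noncomputable def cQ : ℝ := 2 * cH 3 2 + 2 * Real.sqrt 2

lemma cQ_pos : 0 < cQ := by
  have h1 := cH_pos 3 (K := 2) (by norm_num)
  have h2 := sqrt2_pos
  unfold cQ; positivity

lemma qq_eq (hu : Sol u) (hlt : ∀ x, |u x| < 1) : qq u = fun x => defi u x / ff u x ^ 2 := by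
  funext x
  have h := (ff_pos hlt x).ne'
  rw [defi_eq_qq hu hlt]; field_simp

lemma abs_pd_le_ff (hu : Sol u) (i : Fin 3) (x : R3) : |pd i u x| ≤ ff u x := by
  have e : dd (Pi.single i 1) u x = pd i u x := by unfold dd; simp [Pi.single_apply]
  have h := dd_abs_le_f hu (e := Pi.single i 1) (by simp [Pi.single_apply]) x
  rw [e] at h
  exact h

lemma qq_differentiable (hu : Sol u) (hlt : ∀ x, |u x| < 1) : Differentiable ℝ (qq u) := by
  rw [qq_eq hu hlt]
  intro x
  have h1 : DifferentiableAt ℝ (fun y => ff u y ^ 2) x := ((ff_nice hu).1 x).fun_pow 2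
  have h2 : ff u x ^ 2 ≠ 0 := pow_ne_zero 2 (ff_pos hlt x).ne'
  simp_rw [div_eq_mul_inv]
  exact ((nice_defi hu).1 x).fun_mul (h1.fun_inv h2)

/-- **(H3)** `|∂ q| ≤ C q` everywhere. -/
theorem abs_pd_qq_le (hu : Sol u) (hlt : ∀ x, |u x| < 1) (k : Fin 3) (x : R3) :
    |pd k (qq u) x| ≤ cQ * qq u x := by
  have hf := ff_pos hlt x
  have hf' := hf.ne'
  have d1 := (nice_defi hu).1 x
  have d2 := (ff_nice hu).1 x
  have e1 : pd k (qq u) x = pd k (defi u) x / ff u x ^ 2
      + 2 * Real.sqrt 2 * u x * (pd k u x / ff u x) * (defi u x / ff u x ^ 2) := by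
    rw [qq_eq hu hlt, pd_div (g := fun y => ff u y ^ 2) d1 (d2.fun_pow 2) (pow_ne_zero 2 hf')]
    have : pd k (fun y => ff u y ^ 2) x = 2 * ff u x * pd k (ff u) x := pd_sq d2
    rw [this, pd_ff hu]
    field_simp
    ring
  have h1 := abs_pd_defi_le hu k x
  have h2 : |u x| ≤ 1 := hu.bd x
  have h3 : |pd k u x / ff u x| ≤ 1 := by
    rw [abs_div, abs_of_pos hf, div_le_one hf]
    exact abs_pd_le_ff hu k x
  have hq : defi u x / ff u x ^ 2 = qq u x := by rw [qq_eq hu hlt]
  have hq0 := qq_nonneg hu hlt x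
  rw [e1, hq]
  refine (abs_add_le _ _).trans ?_
  have h4 : |pd k (defi u) x / ff u x ^ 2| ≤ 2 * cH 3 2 * qq u x := by
    rw [abs_div, abs_of_pos (by positivity : 0 < ff u x ^ 2), div_le_iff₀ (by positivity)]
    rw [defi_eq_qq hu hlt] at h1
    linarith
  have h5 : |2 * Real.sqrt 2 * u x * (pd k u x / ff u x) * qq u x| ≤ 2 * Real.sqrt 2 * qq u x := by
    rw [abs_mul, abs_mul, abs_mul, abs_of_nonneg hq0,
      abs_of_pos (by have := sqrt2_pos; positivity : 0 < 2 * Real.sqrt 2)]
    have h6 : |u x| * |pd k u x / ff u x| ≤ 1 * 1 :=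
      mul_le_mul h2 h3 (abs_nonneg _) zero_le_one
    have h7 : 0 ≤ 2 * Real.sqrt 2 * qq u x := by have := sqrt2_pos; positivity
    nlinarith only [h6, h7]
  unfold cQ
  linarith

/-- **(H3)** Harnack inequality for `q`. -/
theorem harnack_qq (hu : Sol u) (hlt : ∀ x, |u x| < 1) (x y : R3) :
    qq u y ≤ Real.exp (3 * cQ * ‖y - x‖) * qq u x := by
  have := harnack_of_grad (qq_differentiable hu hlt) cQ_pos.le (qq_nonneg hu hlt)
    (fun q x => abs_pd_qq_le hu hlt q x) x y
  exact_mod_cast this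

/-! ### The second fundamental form -/

/-- `|∇φ|² |H| ≤ C q`. -/
theorem rr_sq_hh_le (hu : Sol u) (hlt : ∀ x, |u x| < 1) (x : R3) :
    rr u x ^ 2 * |hh u x| ≤ 3 * cH 3 2 * qq u x := by
  have hf := ff_pos hlt x
  have hc := cH_pos 3 (K := 2) (by norm_num)
  have hq0 := qq_nonneg hu hlt x
  rcases (gs_nonneg u x).eq_or_lt with h | h
  · have : rr u x ^ 2 = 0 := by
      unfold rr; rw [wn_sq, gs_phi hu hlt, ← h, zero_div]
    rw [this, zero_mul]; positivity
  · have h1 := wn_sq_mc_le hu h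
    rw [wn_eq hu hlt, defi_eq_qq hu hlt, ← hh_eq hu hlt] at h1
    have h2 : ff u x ^ 2 * (rr u x ^ 2 * |hh u x|) ≤ ff u x ^ 2 * (3 * cH 3 2 * qq u x) := by
      push_cast at h1
      nlinarith only [h1]
    exact le_of_mul_le_mul_left h2 (by positivity)

/-- All the bounds of the geometry of level sets by `q`. -/
theorem exists_geom_bound : ∃ C : ℝ, 1 ≤ C ∧ ∀ u : R3 → ℝ, Sol u → (∀ x, |u x| < 1) → ∀ x : R3,
    rr u x ^ 2 * |hh u x| ≤ C * qq u x ∧ rr u x ^ 2 * a2 u x ≤ C * qq u x ∧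
    (∀ i j, rr u x * |pd j (fun y => nn u y i) x| ≤ C * Real.sqrt (qq u x)) ∧
    (∀ i j, |pd j (pd i (phi u)) x| ≤ C * Real.sqrt (qq u x)) := by
  obtain ⟨C1, h11, hC1⟩ := exists_dn_bound 3
  obtain ⟨C2, h21, hC2⟩ := exists_nu_bound 3
  obtain ⟨C3, h31, hC3⟩ := exists_psi_bound 3 1
  have hc := cH_pos 3 (K := 2) (by norm_num)
  have hQ := cQ_pos
  refine ⟨3 * cH 3 2 + C1 + C2 + (8 * C3 + 8) + cQ, by linarith, fun u hu hlt x => ?_⟩
  have hf := ff_pos hlt x
  have hf' := hf.ne'
  have hq0 := qq_nonneg hu hlt x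
  have hq1 := qq_le_one u x
  have hr0 := rr_nonneg u x
  have hr2 := rr_sq u x
  have hs0 := Real.sqrt_nonneg (qq u x)
  have hss : Real.sqrt (qq u x) ^ 2 = qq u x := Real.sq_sqrt hq0
  have hs1 : Real.sqrt (qq u x) ≤ 1 := by
    rw [show (1:ℝ) = Real.sqrt 1 by simp]
    exact Real.sqrt_le_sqrt hq1
  have hqs : qq u x ≤ Real.sqrt (qq u x) := by nlinarith only [hss, hs0, hs1]
  have hsD : Real.sqrt (defi u x) = ff u x * Real.sqrt (qq u x) := by
    rw [defi_eq_qq hu hlt, Real.sqrt_mul (by positivity), Real.sqrt_sq hf.le]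
  have hgrad : ∀ i j, rr u x * |pd j (fun y => nn u y i) x| ≤ C2 * Real.sqrt (qq u x) := by
    intro i j
    have e : (fun y => nn u y i) = SM.nu u i := by
      funext y; unfold nn; rw [nu_phi hu hlt]
    rw [e]
    rcases (gs_nonneg u x).eq_or_lt with h | h
    · have : rr u x = 0 := by
        have : rr u x ^ 2 = 0 := by
          unfold rr; rw [wn_sq, gs_phi hu hlt, ← h, zero_div]
        exact pow_eq_zero_iff (two_ne_zero) |>.mp this
      rw [this, zero_mul]; positivity
    · have h1 := hC2 u hu x h i j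
      rw [wn_eq hu hlt, hsD] at h1
      have h2 : ff u x * (rr u x * |pd j (SM.nu u i) x|)
          ≤ ff u x * (C2 * Real.sqrt (qq u x)) := by linarith
      exact le_of_mul_le_mul_left h2 hf
  refine ⟨?_, ?_, fun i j => ?_, fun i j => ?_⟩
  · have := rr_sq_hh_le hu hlt x
    nlinarith only [this, h11, h21, h31, hQ, hq0, mul_nonneg (by linarith : 0 ≤ C1 + C2 + (8 * C3 + 8) + cQ) hq0]
  · have h1 : rr u x ^ 2 * a2 u x ≤ C1 * qq u x := by
      rcases (gs_nonneg u x).eq_or_lt with h | h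
      · have : rr u x ^ 2 = 0 := by
          unfold rr; rw [wn_sq, gs_phi hu hlt, ← h, zero_div]
        rw [this, zero_mul]; positivity
      · have h1 := hC1 u hu x h
        rw [wn_eq hu hlt, defi_eq_qq hu hlt] at h1
        have h2 := SM.Sol.dn_eq hu h
        have h3 := tl_nonneg u x
        rw [a2_eq hu hlt]
        have h4 : ff u x ^ 2 * (rr u x ^ 2 * an u x) ≤ ff u x ^ 2 * (C1 * qq u x) := by
          have h5 : an u x ≤ dn u x := by linarith
          calc ff u x ^ 2 * (rr u x ^ 2 * an u x) = (ff u x * rr u x) ^ 2 * an u x := by ring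
            _ ≤ (ff u x * rr u x) ^ 2 * dn u x := mul_le_mul_of_nonneg_left h5 (sq_nonneg _)
            _ ≤ C1 * (ff u x ^ 2 * qq u x) := h1
            _ = _ := by ring
        exact le_of_mul_le_mul_left h4 (by positivity)
    nlinarith only [h1, h21, h31, hc, hQ, hq0, mul_nonneg (by linarith : 0 ≤ 3 * cH 3 2 + C2 + (8 * C3 + 8) + cQ) hq0]
  · have := hgrad i j
    nlinarith only [this, mul_nonneg (by linarith : 0 ≤ 3 * cH 3 2 + C1 + (8 * C3 + 8) + cQ) hs0]
  · -- second derivatives of `φ`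
    have dpi : DifferentiableAt ℝ (pd i u) x := ((nice_u hu).pd i).1 x
    have dff : DifferentiableAt ℝ (ff u) x := (ff_nice hu).1 x
    have e0 : pd i (phi u) = fun y => pd i u y / ff u y := by
      funext y; exact pd_phi hu hlt i y
    have e1 : pd j (pd i (phi u)) x = pd j (pd i u) x / ff u x
        + Real.sqrt 2 * u x * (pd i u x / ff u x) * (pd j u x / ff u x) := by
      rw [e0, pd_div dpi dff hf', pd_ff hu]
      field_simp
      ring
    have h2 : |u x| ≤ 1 := hu.bd x
    have h3 : ∀ k, |pd k u x / ff u x| ≤ 1 := by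
      intro k
      rw [abs_div, abs_of_pos hf, div_le_one hf]
      exact abs_pd_le_ff hu k x
    have hs2 : Real.sqrt 2 ≤ 2 := by
      have := sqrt2_sq; have := sqrt2_pos; nlinarith
    -- crude bound
    have hcr : |pd j (pd i (phi u)) x| ≤ 2 * C3 + 2 := by
      rw [e1]
      refine (abs_add_le _ _).trans (add_le_add ?_ ?_)
      · have h4 := hC3 u hu x i [j] (by simp) x
        rw [sub_self, norm_zero, mul_zero, Real.exp_zero, mul_one] at h4
        rw [abs_div, abs_of_pos hf, div_le_iff₀ hf]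
        have h5 : psi u x = ff u x * Real.sqrt 2 := by
          rw [ff_eq]; have := sqrt2_pos.ne'; field_simp
        rw [h5] at h4
        calc |pd j (pd i u) x| ≤ C3 * (ff u x * Real.sqrt 2) := h4
          _ ≤ C3 * (ff u x * 2) := by gcongr
          _ = 2 * C3 * ff u x := by ring
      · rw [abs_mul, abs_mul, abs_mul, abs_of_pos sqrt2_pos]
        have h4 : |u x| * |pd i u x / ff u x| * |pd j u x / ff u x| ≤ 1 * 1 * 1 := by
          apply mul_le_mul (mul_le_mul h2 (h3 i) (abs_nonneg _) zero_le_one) (h3 j)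
            (abs_nonneg _) (by norm_num)
        calc Real.sqrt 2 * |u x| * |pd i u x / ff u x| * |pd j u x / ff u x|
            = Real.sqrt 2 * (|u x| * |pd i u x / ff u x| * |pd j u x / ff u x|) := by ring
          _ ≤ 2 * (1 * 1 * 1) := mul_le_mul hs2 h4 (by positivity) (by norm_num)
          _ = 2 := by norm_num
    by_cases hq : qq u x ≤ 3 / 4
    · have hr := rr_ge_half hq
      have hr1 : 0 < rr u x := by linarith
      have hgs : 0 < gs (phi u) x := by
        have : rr u x ^ 2 = gs (phi u) x := wn_sq _ _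
        rw [← this]; positivity
      -- `φ_i = rr ν_i`
      have hdr : DifferentiableAt ℝ (rr u) x := by
        have e : rr u = fun y => Real.sqrt (gs (phi u) y) := rfl
        have e2 : gs (phi u) = fun y => 1 - qq u y := by funext y; unfold qq; ring
        rw [e, e2]
        apply DifferentiableAt.sqrt ((qq_differentiable hu hlt x).const_sub 1)
        have := qq_eq hu hlt
        have h9 : 1 - qq u x = gs (phi u) x := by unfold qq; ring
        rw [h9]; exact hgs.ne'
      have hprr : |pd j (rr u) x| ≤ cQ * qq u x := by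
        have e3 : (fun y => rr u y ^ 2) = fun y => 1 - qq u y := by
          funext y; exact rr_sq u y
        have h5 : 2 * rr u x * pd j (rr u) x = - pd j (qq u) x := by
          rw [← pd_sq hdr, e3, pd_sub (by fun_prop) (qq_differentiable hu hlt x), pd_const,
            zero_sub]
        have h6 := abs_pd_qq_le hu hlt j x
        have h7 : 2 * rr u x * |pd j (rr u) x| = |pd j (qq u) x| := by
          rw [← abs_neg (pd j (qq u) x), ← h5, abs_mul, abs_of_pos (by positivity : 0 < 2 * rr u x)]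
        nlinarith only [h6, h7, hr, abs_nonneg (pd j (rr u) x)]
      have hgu : 0 < gs u x := by
        rw [gs_phi hu hlt] at hgs
        have := mul_pos hgs (by positivity : 0 < ff u x ^ 2)
        rwa [div_mul_cancel₀ _ (by positivity)] at this
      have hdn : DifferentiableAt ℝ (SM.nu u i) x := da (SM.Sol.nu_c2 hu hgu i)
      have e4 : pd i (phi u) =ᶠ[𝓝 x] fun y => rr u y * SM.nu u i y := by
        have hcont : ContinuousAt (gs u) x := (SM.Sol.gs_nat hu 0).continuous.continuousAt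
        filter_upwards [hcont.eventually (lt_mem_nhds hgu)] with y hy
        have hw := (wn_pos hy).ne'
        rw [pd_phi hu hlt]
        unfold SM.nu
        rw [wn_eq hu hlt] at hw ⊢
        have hfy := (ff_pos hlt y).ne'
        have hry : rr u y ≠ 0 := fun h => hw (by rw [h, mul_zero])
        field_simp
      have h8 : pd j (pd i (phi u)) x = rr u x * pd j (SM.nu u i) x
          + SM.nu u i x * pd j (rr u) x := by
        rw [pd_congr e4, pd_mul hdr hdn]
      have h9 : |SM.nu u i x| ≤ 1 := by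
        apply abs_le_of_sq_le_sq _ (by norm_num)
        rw [one_pow, ← sum_nu_sq hgu]
        exact Finset.single_le_sum (f := fun i => SM.nu u i x ^ 2) (fun _ _ => sq_nonneg _)
          (Finset.mem_univ i)
      have h10 := hgrad i j
      have e : (fun y => nn u y i) = SM.nu u i := by
        funext y; unfold nn; rw [nu_phi hu hlt]
      rw [e] at h10
      have h11' : |pd j (pd i (phi u)) x| ≤ C2 * Real.sqrt (qq u x) + cQ * qq u x := by
        rw [h8]
        refine (abs_add_le _ _).trans (add_le_add ?_ ?_)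
        · rw [abs_mul, abs_of_pos hr1]; exact h10
        · rw [abs_mul]
          calc |SM.nu u i x| * |pd j (rr u) x| ≤ 1 * (cQ * qq u x) :=
                mul_le_mul h9 hprr (abs_nonneg _) zero_le_one
            _ = _ := one_mul _
      nlinarith only [h11', hqs, hQ, mul_nonneg (by linarith : 0 ≤ 3 * cH 3 2 + C1 + (8 * C3 + 8)) hs0,
        mul_le_mul_of_nonneg_left hqs hQ.le]
    · push Not at hq
      have h5 : 1 / 2 ≤ Real.sqrt (qq u x) := by nlinarith only [hss, hs0, hq]
      have h6 : 2 * C3 + 2 ≤ (8 * C3 + 8) * Real.sqrt (qq u x) := by nlinarith only [h5, h31]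
      refine hcr.trans (h6.trans ?_)
      apply mul_le_mul_of_nonneg_right _ hs0
      linarith

end Vale.Agent.P134.H283
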