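import Vale.Agent.P134.LI.Fct1
import Vale.Agent.P134.LI.T2

/-! P134, package R3: block T3a of S-D1 (tangential terms, first half). -/

set_option linter.all false

namespace Vale.Agent.P134.T3a283.T3a

open Vale.Agent.P134 Vale.Agent.P134.SM Vale.Agent.P134.LI MeasureTheory Filter Topology
open Vale.Agent.P134.LI.Fct

variable {CX s3 δ W lam C1 μ c2 Cp ε κ R : ℝ} {u : R3 → ℝ} {B : Set R3} {η : R3 → ℝ} {w : ℝ → ℝ}
  {χ om b : R3 → ℝ} {x : R3} {t : ℝ} {z : R3 × ℝ}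

/-- elementary: `(a + b + c)² ≤ (1+m) a² + 2(1 + 1/m)(b² + c²)`. -/
lemma sq3_le {m a b c : ℝ} (hm : 0 < m) :
    (a + b + c) ^ 2 ≤ (1 + m) * a ^ 2 + 2 * (1 + 1 / m) * (b ^ 2 + c ^ 2) := by
  have h1 : 0 ≤ (m * a - (b + c)) ^ 2 / m := by positivity
  have h2 : (m * a - (b + c)) ^ 2 / m = m * a ^ 2 - 2 * a * (b + c) + (1 / m) * (b + c) ^ 2 := by
    field_simp
    ring
  have h3 : 0 ≤ 1 / m := by positivity
  nlinarith [sq_nonneg (b - c), mul_nonneg h3 (sq_nonneg (b - c))]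

lemma gs_prod (hη : DifferentiableAt ℝ η x) (ho : DifferentiableAt ℝ om x)
    (hb : DifferentiableAt ℝ b x) {m : ℝ} (hm : 0 < m) (h1 : 0 ≤ om x ∧ om x ≤ 1)
    (h2 : 0 ≤ b x ∧ b x ≤ 1) :
    gs (fun y => η y * om y * b y) x
      ≤ (1 + m) * gs η x + 2 * (1 + 1 / m) * (η x ^ 2 * (gs om x + gs b x)) := by
  have h3 : 0 ≤ 1 / m := by positivity
  have hpt : ∀ i, pd i (fun y => η y * om y * b y) x ^ 2
      ≤ (1 + m) * pd i η x ^ 2 + 2 * (1 + 1 / m) * (η x ^ 2 * (pd i om x ^ 2 + pd i b x ^ 2)) := by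
    intro i
    have e : pd i (fun y => η y * om y * b y) x
        = om x * b x * pd i η x + η x * b x * pd i om x + η x * om x * pd i b x := by
      have q1 := pd_mul (i := i) hη ho
      have q2 := pd_mul (i := i) (f := fun y => η y * om y) (g := b) (x := x) (hη.mul ho) hb
      rw [q2, q1]
      ring
    rw [e]
    refine (sq3_le hm).trans ?_
    have ha : (om x * b x * pd i η x) ^ 2 ≤ pd i η x ^ 2 := by
      have : (om x * b x) ^ 2 ≤ 1 := by
        have h4 : om x * b x ≤ 1 := by nlinarith [h1.1, h1.2, h2.1, h2.2]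
        have h5 : 0 ≤ om x * b x := mul_nonneg h1.1 h2.1
        nlinarith
      rw [mul_pow]
      nlinarith [sq_nonneg (pd i η x)]
    have hb1 : (η x * b x * pd i om x) ^ 2 ≤ η x ^ 2 * pd i om x ^ 2 := by
      have : b x ^ 2 ≤ 1 := by nlinarith [h2.1, h2.2]
      have e2 : (η x * b x * pd i om x) ^ 2 = b x ^ 2 * (η x ^ 2 * pd i om x ^ 2) := by ring
      rw [e2]
      exact mul_le_of_le_one_left (by positivity) this
    have hc1 : (η x * om x * pd i b x) ^ 2 ≤ η x ^ 2 * pd i b x ^ 2 := by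
      have : om x ^ 2 ≤ 1 := by nlinarith [h1.1, h1.2]
      have e2 : (η x * om x * pd i b x) ^ 2 = om x ^ 2 * (η x ^ 2 * pd i b x ^ 2) := by ring
      rw [e2]
      exact mul_le_of_le_one_left (by positivity) this
    have hA := mul_le_mul_of_nonneg_left ha (by positivity : (0:ℝ) ≤ 1 + m)
    have hB := mul_le_mul_of_nonneg_left (add_le_add hb1 hc1)
      (by positivity : (0:ℝ) ≤ 2 * (1 + 1 / m))
    calc _ ≤ (1 + m) * pd i η x ^ 2
          + 2 * (1 + 1 / m) * (η x ^ 2 * pd i om x ^ 2 + η x ^ 2 * pd i b x ^ 2) :=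
          add_le_add hA hB
      _ = _ := by ring
  unfold gs
  calc ∑ i, pd i (fun y => η y * om y * b y) x ^ 2
      ≤ ∑ i, ((1 + m) * pd i η x ^ 2
          + 2 * (1 + 1 / m) * (η x ^ 2 * (pd i om x ^ 2 + pd i b x ^ 2))) :=
        Finset.sum_le_sum fun i _ => hpt i
    _ = _ := by
        rw [Finset.sum_add_distrib, ← Finset.mul_sum, ← Finset.mul_sum, ← Finset.mul_sum,
          Finset.sum_add_distrib]

lemma gs_om_le (hS : SDat CX s3 δ W lam C1 u B η w χ om) (hW : 1 ≤ W) (hC : 0 < C1) (x : R3) :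
    gs om x ≤ 48 * C1 ^ 2 := by
  have h : ∀ i, pd i om x ^ 2 ≤ 16 * C1 ^ 2 := by
    intro i
    have h1 := hS.omd x i
    have h2 : 4 * C1 / W ≤ 4 * C1 := div_le_self (by positivity) hW
    have h3 := abs_le.mp (h1.trans h2)
    nlinarith [h3.1, h3.2]
  unfold gs
  calc ∑ i, pd i om x ^ 2 ≤ ∑ i : Fin 3, 16 * C1 ^ 2 := Finset.sum_le_sum fun i _ => h i
    _ = _ := by simp; ring

lemma gs_b_le (hb : BDat C1 R b) (hC : 0 < C1) (x : R3) :
    gs b x ≤ 3 * C1 ^ 2 / R := by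
  have hR := hb.R1
  have h : ∀ i, pd i b x ^ 2 ≤ C1 ^ 2 / R := by
    intro i
    have h1 := hb.bd x i
    have h3 := abs_le.mp h1
    have h4 : pd i b x ^ 2 ≤ (C1 / R) ^ 2 := sq_le_sq' h3.1 h3.2
    refine h4.trans ?_
    rw [div_pow]
    exact div_le_div_of_nonneg_left (by positivity) (by positivity) (by nlinarith)
  unfold gs
  calc ∑ i, pd i b x ^ 2 ≤ ∑ i : Fin 3, C1 ^ 2 / R := Finset.sum_le_sum fun i _ => h i
    _ = _ := by simp; ring

/-- the weight `P = ∫ χ(x~) prf²` is tiny in the bad zone. -/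
lemma P_small (hS : SDat CX s3 δ W lam C1 u B η w χ om) (hW : 1 ≤ W)
    (h : |phi u x| ≤ s3) (hx : ¬ Far B (W / 2) x) :
    ∫ t, χ (xt u x t) * prf ε κ u x t ^ 2 ≤ cG s3 * Real.exp (-(Real.sqrt 2) * W) := by
  have hT := tail_g1 (s := phi u x) h (T := W / 2) (by linarith)
  have e : -(2 * Real.sqrt 2) * (W / 2) = -(Real.sqrt 2) * W := by ring
  rw [e] at hT
  refine le_trans ?_ hT
  have hm : MeasurableSet {t : ℝ | W / 2 ≤ |t|} :=
    (isClosed_le continuous_const continuous_abs).measurableSet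
  rw [← integral_indicator hm]
  refine integral_mono (integrable_mul_prf_sq x (C := 1)
      (hS.chi2.continuous.comp (xt_cont_t x)).aestronglyMeasurable (fun t => ?_))
      ((integrable_g1_shift (phi u x)).indicator hm) (fun t => ?_)
  · rw [abs_of_nonneg (hS.chib _).1]; exact (hS.chib _).2
  · by_cases h0 : χ (xt u x t) = 0
    · simp only [h0, zero_mul]
      exact Set.indicator_nonneg (fun t _ => sq_nonneg _) t
    · have h1 := chi_ne hS h0
      have h2 := lt_abs_of_xt_far hx h1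
      have h3 : t ∈ {t : ℝ | W / 2 ≤ |t|} := by
        simp only [Set.mem_setOf_eq]; linarith
      rw [Set.indicator_of_mem h3]
      calc χ (xt u x t) * prf ε κ u x t ^ 2 ≤ 1 * prf ε κ u x t ^ 2 :=
            mul_le_mul_of_nonneg_right (hS.chib _).2 (sq_nonneg _)
        _ ≤ _ := by rw [one_mul]; exact prf_sq_le x t

lemma eta_sq_le (hS : SDat CX s3 δ W lam C1 u B η w χ om) (x : R3) : η x ^ 2 ≤ Gw lam x ^ 2 := by
  obtain ⟨h1, h2⟩ := hS.etab x
  exact pow_le_pow_left₀ h1 h2 2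

lemma int_gs (hS : SDat CX s3 δ W lam C1 u B η w χ om) :
    Integrable fun x => w (phi u x) * rr u x * gs η x := by
  obtain ⟨M, hM⟩ := hS.etaM
  have hG : Integrable (fun x => Gw lam x ^ 2) := H586.int_Gw_sq hS.lam0
  refine (hG.const_mul |M|).mono' ?_ (Eventually.of_forall fun x => ?_)
  · exact ((T2.meas_wrr hS).mul (H88.meas_gs η)).aestronglyMeasurable
  · have h1 := T2.wrr_nonneg hS x
    have h2 := T2.wrr_le_one hS x
    have h3 := gs_nonneg η x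
    rw [Real.norm_eq_abs, abs_of_nonneg (mul_nonneg h1 h3)]
    calc w (phi u x) * rr u x * gs η x ≤ 1 * gs η x := mul_le_mul_of_nonneg_right h2 h3
      _ ≤ M * Gw lam x ^ 2 := by rw [one_mul]; exact hM x
      _ ≤ |M| * Gw lam x ^ 2 := mul_le_mul_of_nonneg_right (le_abs_self M) (sq_nonneg _)

/-- `W³ e^{-√2 W} ≤ 1000 e^{-W}` -/
lemma W3_exp (hW : 1 ≤ W) : W ^ 3 * Real.exp (-(Real.sqrt 2) * W) ≤ 1000 * Real.exp (-W) := by
  have hs : (1.4 : ℝ) ≤ Real.sqrt 2 := by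
    rw [show (1.4:ℝ) = Real.sqrt (1.4 ^ 2) by rw [Real.sqrt_sq (by norm_num)]]
    exact Real.sqrt_le_sqrt (by norm_num)
  have h1 : Real.exp (-(Real.sqrt 2) * W) ≤ Real.exp (-W) * Real.exp (-(0.4 * W)) := by
    rw [← Real.exp_add]
    refine Real.exp_le_exp.mpr ?_
    nlinarith
  have h2 : W ^ 3 * Real.exp (-(0.4 * W)) ≤ 1000 := by
    have h3 : 0.4 * W / 3 + 1 ≤ Real.exp (0.4 * W / 3) := Real.add_one_le_exp _
    have h4 : (0.4 * W / 3) ^ 3 ≤ Real.exp (0.4 * W) := by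
      have h5 : (0.4 * W / 3) ^ 3 ≤ Real.exp (0.4 * W / 3) ^ 3 :=
        pow_le_pow_left₀ (by positivity) (by linarith) 3
      refine h5.trans (le_of_eq ?_)
      rw [← Real.exp_nat_mul]
      congr 1
      push_cast
      ring
    rw [Real.exp_neg, ← div_eq_mul_inv, div_le_iff₀ (Real.exp_pos _)]
    have h6 : (0.4 * W / 3) ^ 3 = W ^ 3 * (0.064 / 27) := by ring
    rw [h6] at h4
    have h7 : 0 ≤ W ^ 3 := by positivity
    linarith
  calc W ^ 3 * Real.exp (-(Real.sqrt 2) * W)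
      ≤ W ^ 3 * (Real.exp (-W) * Real.exp (-(0.4 * W))) :=
        mul_le_mul_of_nonneg_left h1 (by positivity)
    _ = (W ^ 3 * Real.exp (-(0.4 * W))) * Real.exp (-W) := by ring
    _ ≤ _ := mul_le_mul_of_nonneg_right h2 (Real.exp_pos _).le

/-- short for the indicator of the zone of the cutoff. -/
noncomputable def Nd (B : Set R3) (W lam : ℝ) (x : R3) : ℝ :=
  {x | ¬ Far B (W / 2) x}.indicator (fun x => Gw lam x ^ 2) x

lemma Nd_nonneg (x : R3) : 0 ≤ Nd B W lam x := Set.indicator_nonneg (fun _ _ => sq_nonneg _) x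

lemma om_term (hS : SDat CX s3 δ W lam C1 u B η w χ om) (hW : 1 ≤ W) (hC1 : 0 < C1)
    (hlt : |phi u x| ≤ s3) (hcG : 0 < Fct.cG s3)
    {P : ℝ} (hPd : P = ∫ t, χ (xt u x t) * prf ε κ u x t ^ 2) (hP0 : 0 ≤ P) :
    η x ^ 2 * gs om x * P ≤ 48 * C1 ^ 2 * (Fct.cG s3 * Real.exp (-(Real.sqrt 2) * W)) *
          Nd B W lam x := by
  have hgo := gs_om_le hS hW hC1 x
  have hη := eta_sq_le hS x
  have hgo0 := gs_nonneg om x
  by_cases h0 : gs om x = 0
  · rw [h0]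
    have hn : 0 ≤ Nd B W lam x := Nd_nonneg x
    have : 0 ≤ 48 * C1 ^ 2 * (Fct.cG s3 * Real.exp (-(Real.sqrt 2) * W)) * Nd B W lam x := by
      positivity
    simpa using this
  · have h2 := (om_gs hS h0).2
    have h3 : x ∈ {x | ¬ Far B (W / 2) x} := h2
    have h4 : Nd B W lam x = Gw lam x ^ 2 := Set.indicator_of_mem h3 _
    rw [h4]
    have hPs := P_small (ε := ε) (κ := κ) hS hW hlt h2
    rw [← hPd] at hPs
    have hc1 : η x ^ 2 * gs om x ≤ Gw lam x ^ 2 * (48 * C1 ^ 2) :=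
      mul_le_mul hη hgo hgo0 (sq_nonneg _)
    calc η x ^ 2 * gs om x * P
        ≤ (Gw lam x ^ 2 * (48 * C1 ^ 2)) * (Fct.cG s3 * Real.exp (-(Real.sqrt 2) * W)) :=
          mul_le_mul hc1 hPs hP0 (by positivity)
      _ = _ := by ring

lemma b_term (hS : SDat CX s3 δ W lam C1 u B η w χ om) (hC1 : 0 < C1) (hb : BDat C1 R b)
    {P : ℝ} (hP0 : 0 ≤ P) (hP1 : P ≤ sig0) :
    η x ^ 2 * gs b x * P ≤ sig0 * (3 * C1 ^ 2 / R) * Gw lam x ^ 2 := by
  have hgb := gs_b_le hb hC1 x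
  have hη := eta_sq_le hS x
  have hgb0 := gs_nonneg b x
  have hR := hb.R1
  have hc1 : η x ^ 2 * gs b x ≤ Gw lam x ^ 2 * (3 * C1 ^ 2 / R) :=
    mul_le_mul hη hgb hgb0 (sq_nonneg _)
  have hn : 0 ≤ Gw lam x ^ 2 * (3 * C1 ^ 2 / R) := by positivity
  calc η x ^ 2 * gs b x * P ≤ (Gw lam x ^ 2 * (3 * C1 ^ 2 / R)) * sig0 :=
        mul_le_mul hc1 hP1 hP0 hn
    _ = _ := by ring

lemma c_term {A e q Cp' V ε' o : ℝ} (hCp : 0 ≤ Cp') (hV : 0 ≤ V) (he : 0 ≤ ε') (hq : 0 ≤ q)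
    (hA : 0 ≤ A) (ho0 : 0 ≤ o) (ho1 : o ≤ 1) :
    Cp' * ε' * q * (A * o) ≤ Cp' * (V + ε') * (A * q) := by
  have h1 : A * o ≤ A := mul_le_of_le_one_right hA ho1
  calc Cp' * ε' * q * (A * o) ≤ Cp' * ε' * q * A := mul_le_mul_of_nonneg_left h1 (by positivity)
    _ = Cp' * ε' * (A * q) := by ring
    _ ≤ Cp' * (V + ε') * (A * q) := by
        refine mul_le_mul_of_nonneg_right ?_ (by positivity)
        exact mul_le_mul_of_nonneg_left (by linarith) hCp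

/-- real algebra for the gradient term. -/
lemma grad_alg {m g gE P sg h go gb Cm X Y : ℝ} (hm0 : 0 < m) (hm1 : m < 1)
    (hCm : Cm = (1 + m / 8) * (2 * (1 + 1 / (m / 8)))) (hg : 0 ≤ g) (hP0 : 0 ≤ P) (hP1 : P ≤ sg)
    (hprod : gE ≤ (1 + m / 8) * g + 2 * (1 + 1 / (m / 8)) * (h * (go + gb)))
    (hA : h * go * P ≤ X) (hB : h * gb * P ≤ Y) :
    (1 + m / 8) * gE * P ≤ (1 + m / 2) * sg * g + Cm * X + Cm * Y := by
  have hCm0 : 0 ≤ Cm := by rw [hCm]; positivity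
  have s1 : (1 + m / 8) * gE * P
      ≤ (1 + m / 8) * ((1 + m / 8) * g + 2 * (1 + 1 / (m / 8)) * (h * (go + gb))) * P :=
    mul_le_mul_of_nonneg_right (mul_le_mul_of_nonneg_left hprod (by positivity)) hP0
  have s2 : (1 + m / 8) * ((1 + m / 8) * g + 2 * (1 + 1 / (m / 8)) * (h * (go + gb))) * P
      = (1 + m / 8) ^ 2 * (g * P) + Cm * (h * go * P) + Cm * (h * gb * P) := by
    rw [hCm]; ring
  have hm2 : (1 + m / 8) ^ 2 ≤ 1 + m / 2 := by nlinarith
  have hgP : g * P ≤ g * sg := mul_le_mul_of_nonneg_left hP1 hg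
  have hgP0 : 0 ≤ g * P := mul_nonneg hg hP0
  have hm3 : 0 ≤ 1 + m / 2 := by linarith
  have s3' : (1 + m / 8) ^ 2 * (g * P) ≤ (1 + m / 2) * (g * sg) :=
    mul_le_mul hm2 hgP hgP0 hm3
  have s4 := mul_le_mul_of_nonneg_left hA hCm0
  have s5 := mul_le_mul_of_nonneg_left hB hCm0
  rw [s2] at s1
  have s6 : (1 + m / 2) * (g * sg) = (1 + m / 2) * sg * g := by ring
  linarith

/-- the inner integral in the far zone. -/
lemma far_in (hs3 : 0 < s3) (hC1 : 0 < C1) (hμ0 : 0 < μ) (hμ1 : μ < 1) (hCp : 0 < Cp)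
    (hS : SDat CX s3 δ W lam C1 u B η w χ om) (hW : 1 ≤ W)
    (hP : PtF s3 (μ / 8) c2 Cp ε κ W u B χ) (hb : BDat C1 R b)
    (hlt : |phi u x| < s3) (hFar : Far B (W / 4) x) {Cμ : ℝ}
    (hCμ : Cμ = (1 + μ / 8) * (2 * (1 + 1 / (μ / 8)))) :
    ∫ t, χ (xt u x t) * (esq (cdx u (PhE s3 ε κ u η om b) (x, t)) / jj u x t)
      ≤ (1 + μ / 2) * sig0 * gs η x
            + Cμ * (48 * C1 ^ 2 * (Fct.cG s3 * Real.exp (-(Real.sqrt 2) * W)) * Nd B W lam x)
            + Cμ * (sig0 * (3 * C1 ^ 2 / R) * Gw lam x ^ 2)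
            + Cp * (1 / W + ε) * ((η x * om x) ^ 2 * (qq u x + κ ^ 2)) := by
  have hu : Sol u := hS.hs.toSol
  have h1 := hS.hs.lt
  have hcdx : ∫ t, χ (xt u x t) * (esq (cdx u (PhE s3 ε κ u η om b) (x, t)) / jj u x t)
      ≤ (1 + μ / 8) * gs (EE s3 u η om b) x * (∫ t, χ (xt u x t) * prf ε κ u x t ^ 2)
        + Cp * ε * (qq u x + κ ^ 2) * EE s3 u η om b x ^ 2 :=
    hP.cdx2 (EE s3 u η om b) (ee_cd hS hb) x (by linarith) hFar
  obtain ⟨hP0, hP1⟩ := integral_chi_prf_sq_le (ε := ε) (κ := κ) (u := u)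
    hS.chi2.continuous hS.chib x
  rw [ee_gs hS hs3 hlt, ee_eq hs3 hlt.le] at hcdx
  have hprod := gs_prod (x := x) (η := η) (om := om) (b := b)
    ((hS.eta1.differentiable (by norm_num)) x) ((hS.om2.differentiable (by norm_num)) x)
    ((hb.b2.differentiable (by norm_num)) x) (m := μ / 8) (by positivity)
    (hS.omb x) (hb.bb x)
  have hA := om_term (ε := ε) (κ := κ) hS hW hC1 hlt.le (Fct.cG_pos s3) rfl hP0
  have hB := b_term (x := x) hS hC1 hb hP0 hP1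
  have hq := H147.qq_nonneg hu h1 x
  have hg := grad_alg hμ0 hμ1 hCμ (gs_nonneg η x) hP0 hP1 hprod hA hB
  obtain ⟨hb0, hb1'⟩ := hb.bb x
  have hW0 : 0 < W := by linarith
  have hV : 0 ≤ 1 / W := by positivity
  have hqk : 0 ≤ qq u x + κ ^ 2 := by positivity
  have hC3 := c_term (A := (η x * om x) ^ 2) (e := 0) (q := qq u x + κ ^ 2) (Cp' := Cp)
    (V := 1 / W) (ε' := ε) (o := b x ^ 2) hCp.le hV hP.ep0.le hqk (sq_nonneg _) (sq_nonneg _)
    (by nlinarith)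
  have e1 : (η x * om x * b x) ^ 2 = (η x * om x) ^ 2 * b x ^ 2 := by ring
  rw [e1] at hcdx
  linarith

/-- final algebra at a point. -/
lemma pt_alg {D I T1 X3 X4 c4 g c1 : ℝ} (hD0 : 0 ≤ D) (hD1 : D ≤ 1) (h3 : 0 ≤ X3) (h4 : 0 ≤ X4)
    (h : I ≤ c1 * g + X3 + X4 + T1) :
    D * I ≤ c1 * (D * g) + D * T1 + X3 + X4 := by
  have h5 := mul_le_mul_of_nonneg_left h hD0
  have h6 : D * X3 ≤ X3 := mul_le_of_le_one_left h3 hD1
  have h7 : D * X4 ≤ X4 := mul_le_of_le_one_left h4 hD1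
  have h8 : D * (c1 * g + X3 + X4 + T1) = c1 * (D * g) + D * X3 + D * X4 + D * T1 := by ring
  linarith

lemma key (hs3 : 0 < s3) (hC1 : 0 < C1) (hμ0 : 0 < μ) (hμ1 : μ < 1) (hCp : 0 < Cp)
    (hS : SDat CX s3 δ W lam C1 u B η w χ om) (hW : 1 ≤ W)
    (hP : PtF s3 (μ / 8) c2 Cp ε κ W u B χ) (hb : BDat C1 R b) {Cμ : ℝ}
    (hCμ : Cμ = (1 + μ / 8) * (2 * (1 + 1 / (μ / 8)))) (x : R3) :
    (∫ t, w (phi u x) * rr u x *
        (χ (xt u x t) * (esq (cdx u (PhE s3 ε κ u η om b) (x, t)) / jj u x t)))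
      ≤ (1 + μ / 2) * sig0 * (w (phi u x) * rr u x * gs η x)
        + Cp * (1 / W + ε) * (w (phi u x) * rr u x * (η x * om x) ^ 2 * (qq u x + κ ^ 2))
        + (Cμ * (48 * C1 ^ 2) * Fct.cG s3) * Real.exp (-(Real.sqrt 2) * W) * Nd B W lam x
        + Cμ * sig0 * (3 * C1 ^ 2 / R) * Gw lam x ^ 2 := by
  have hu : Sol u := hS.hs.toSol
  have h1 := hS.hs.lt
  have hD0 := T2.wrr_nonneg hS x
  have hD1 := T2.wrr_le_one hS x
  have hq := H147.qq_nonneg hu h1 x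
  have hε := hP.ep0
  have hgs := gs_nonneg η x
  have hind : 0 ≤ Nd B W lam x := Nd_nonneg x
  have hcG := Fct.cG_pos s3
  have hsig := sig0_pos
  have hCμ0 : 0 < Cμ := by rw [hCμ]; positivity
  have hW0 : 0 < W := by linarith
  have hR1 := hb.R1
  have hqk : 0 ≤ qq u x + κ ^ 2 := by positivity
  have hX3 : 0 ≤ Cμ * (48 * C1 ^ 2 * (Fct.cG s3 * Real.exp (-(Real.sqrt 2) * W)) * Nd B W lam x) := by
    positivity
  have hX4 : 0 ≤ Cμ * (sig0 * (3 * C1 ^ 2 / R) * Gw lam x ^ 2) := by positivity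
  have hT : 0 ≤ (1 + μ / 2) * sig0 * (w (phi u x) * rr u x * gs η x)
        + Cp * (1 / W + ε) * (w (phi u x) * rr u x * (η x * om x) ^ 2 * (qq u x + κ ^ 2)) := by
    positivity
  have e3 : (Cμ * (48 * C1 ^ 2) * Fct.cG s3) * Real.exp (-(Real.sqrt 2) * W) * Nd B W lam x
      = Cμ * (48 * C1 ^ 2 * (Fct.cG s3 * Real.exp (-(Real.sqrt 2) * W)) * Nd B W lam x) := by ring
  have e4 : Cμ * sig0 * (3 * C1 ^ 2 / R) * Gw lam x ^ 2
      = Cμ * (sig0 * (3 * C1 ^ 2 / R) * Gw lam x ^ 2) := by ring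
  rw [e3, e4]
  rw [integral_const_mul]
  by_cases hw : w (phi u x) = 0
  · have e0 : w (phi u x) * rr u x *
        (∫ t, χ (xt u x t) * (esq (cdx u (PhE s3 ε κ u η om b) (x, t)) / jj u x t)) = 0 := by
      rw [hw]; ring
    rw [e0]
    linarith
  have hlt : |phi u x| < s3 := w_ne hS hw
  by_cases hFar : Far B (W / 4) x
  · have hf := far_in hs3 hC1 hμ0 hμ1 hCp hS hW hP hb hlt hFar hCμ
    have ha := pt_alg (c4 := 0) hD0 hD1 hX3 hX4 hf
    have e5 : w (phi u x) * rr u x * (Cp * (1 / W + ε) * ((η x * om x) ^ 2 * (qq u x + κ ^ 2)))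
        = Cp * (1 / W + ε) * (w (phi u x) * rr u x * (η x * om x) ^ 2 * (qq u x + κ ^ 2)) := by
      ring
    rw [e5] at ha
    exact ha
  · have hz : ∀ t, χ (xt u x t) * (esq (cdx u (PhE s3 ε κ u η om b) (x, t)) / jj u x t) = 0 := by
      intro t
      have hzt : (x, t) ∉ tsupport (PhE s3 ε κ u η om b) := fun hzt =>
        hFar (phe_supp hS hP hs3 hb hzt).2.1
      have : esq (cdx u (PhE s3 ε κ u η om b) (x, t)) = 0 := by
        simp only [cdx_zero hzt]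
        simp [esq]
      rw [this]; simp
    have e0 : (∫ t, χ (xt u x t) * (esq (cdx u (PhE s3 ε κ u η om b) (x, t)) / jj u x t)) = 0 := by
      simp only [hz, integral_zero]
    rw [e0, mul_zero]
    linarith

lemma fin_alg {C K Cp V I E S A U T L : ℝ} (hC : C = Cp + K) (hK : 0 ≤ K) (hCp : 0 ≤ Cp)
    (hV : 0 ≤ V) (hI : 0 ≤ I) (hE : 0 ≤ E) (hS : 0 ≤ S)
    (h : L ≤ A + Cp * V * I + T + U) (hT : T ≤ K * E * S) :
    L ≤ A + C * V * I + C * E * S + U := by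
  have h1 : Cp * V * I ≤ C * V * I :=
    mul_le_mul_of_nonneg_right (mul_le_mul_of_nonneg_right (by linarith) hV) hI
  have h2 : K * E * S ≤ C * E * S :=
    mul_le_mul_of_nonneg_right (mul_le_mul_of_nonneg_right (by linarith) hE) hS
  linarith

lemma far_int (hS : SDat CX s3 δ W lam C1 u B η w χ om) (hW : 1 ≤ W) (hlW : lam * W ≤ 1 / 20)
    {K : ℝ} (hK : 0 ≤ K) :
    K * Real.exp (-(Real.sqrt 2) * W) * (∫ x in {x | ¬ Far B (W / 2) x}, Gw lam x ^ 2)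
      ≤ K * (1000 * Real.exp (1 / 20)) * Real.exp (-W) * (∑' b : B, Gw lam b ^ 2) := by
  have hfar := H586.setIntegral_far_le hS.lam0 hS.latt (r := W / 2) (by linarith)
  have hSg0 : 0 ≤ (∑' b : B, Gw lam b ^ 2) := tsum_nonneg fun b => sq_nonneg _
  have hlam : Real.exp (2 * lam * (W / 2)) ≤ Real.exp (1 / 20) :=
    Real.exp_le_exp.mpr (by nlinarith)
  have h3 : (∫ x in {x | ¬ Far B (W / 2) x}, Gw lam x ^ 2)
      ≤ W ^ 3 * Real.exp (1 / 20) * (∑' b : B, Gw lam b ^ 2) := by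
    refine hfar.trans ?_
    have e : 8 * (W / 2) ^ 3 = W ^ 3 := by ring
    rw [e]
    refine mul_le_mul_of_nonneg_right ?_ hSg0
    exact mul_le_mul_of_nonneg_left hlam (by positivity)
  calc K * Real.exp (-(Real.sqrt 2) * W) * (∫ x in {x | ¬ Far B (W / 2) x}, Gw lam x ^ 2)
      ≤ K * Real.exp (-(Real.sqrt 2) * W) * (W ^ 3 * Real.exp (1 / 20) * (∑' b : B, Gw lam b ^ 2)) :=
        mul_le_mul_of_nonneg_left h3 (by positivity)
    _ = K * Real.exp (1 / 20) * (∑' b : B, Gw lam b ^ 2) * (W ^ 3 * Real.exp (-(Real.sqrt 2) * W)) := by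
        ring
    _ ≤ K * Real.exp (1 / 20) * (∑' b : B, Gw lam b ^ 2) * (1000 * Real.exp (-W)) :=
        mul_le_mul_of_nonneg_left (W3_exp hW) (by positivity)
    _ = _ := by ring

lemma outer (hs3 : 0 < s3) (hC1 : 0 < C1) (hμ0 : 0 < μ) (hμ1 : μ < 1) (hCp : 0 < Cp)
    (hS : SDat CX s3 δ W lam C1 u B η w χ om) (hW : 1 ≤ W)
    (hP : PtF s3 (μ / 8) c2 Cp ε κ W u B χ) (hb : BDat C1 R b) {Cμ : ℝ}
    (hCμ : Cμ = (1 + μ / 8) * (2 * (1 + 1 / (μ / 8)))) :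
    (∫ z : R3 × ℝ, w (phi u z.1) * rr u z.1 *
        (χ (xt u z.1 z.2) * (esq (cdx u (PhE s3 ε κ u η om b) z) / jj u z.1 z.2)))
      ≤ (1 + μ / 2) * sig0 * (∫ x, w (phi u x) * rr u x * gs η x)
        + Cp * (1 / W + ε) *
            (∫ x, w (phi u x) * rr u x * (η x * om x) ^ 2 * (qq u x + κ ^ 2))
        + (Cμ * (48 * C1 ^ 2) * Fct.cG s3) * Real.exp (-(Real.sqrt 2) * W) *
            (∫ x in {x | ¬ Far B (W / 2) x}, Gw lam x ^ 2)
        + Cμ * sig0 * (3 * C1 ^ 2 / R) * (∫ x, Gw lam x ^ 2) := by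
  have hG : Integrable (fun x => Gw lam x ^ 2) := H586.int_Gw_sq hS.lam0
  obtain ⟨iF, hfub, iI⟩ := fub hS hP hb
    (F := fun z : R3 × ℝ => w (phi u z.1) * rr u z.1 *
        (χ (xt u z.1 z.2) * (esq (cdx u (PhE s3 ε κ u η om b) z) / jj u z.1 z.2)))
    (fun z hz => by
      have hc := cb hS hP hs3 hb hz
      have hj := (phe_good hS hP hs3 hb hz).2
      refine (wr_cont hS hP hs3 hb hz).mul
        ((xt_cont hS hP hs3 hb hz hS.chi2.continuous).mul (ContinuousAt.div ?_ hc.j hj.ne'))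
      unfold esq
      exact tendsto_finset_sum _ fun i _ => (cdx_cont hS hP hs3 hb hz i).pow 2)
    (fun z hz => by
      simp only [cdx_zero hz]
      simp [esq])
  rw [hfub]
  have iD := T2.int_D (κ := κ) hS
  have iS := int_gs hS
  have hmF : MeasurableSet {x | ¬ Far B (W / 2) x} := measurableSet_not_far B _
  have iN : Integrable (Nd B W lam) := hG.indicator hmF
  have eN : ∫ x, Nd B W lam x = ∫ x in {x | ¬ Far B (W / 2) x}, Gw lam x ^ 2 :=
    integral_indicator hmF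
  have i1 := iS.const_mul ((1 + μ / 2) * sig0)
  have i2 := iD.const_mul (Cp * (1 / W + ε))
  have i3 := iN.const_mul ((Cμ * (48 * C1 ^ 2) * Fct.cG s3) * Real.exp (-(Real.sqrt 2) * W))
  have i4 := hG.const_mul (Cμ * sig0 * (3 * C1 ^ 2 / R))
  have hint := integral_mono iI (((i1.add i2).add i3).add i4)
    (key (ε := ε) (κ := κ) hs3 hC1 hμ0 hμ1 hCp hS hW hP hb hCμ)
  have e := integral_add ((i1.add i2).add i3) i4
  have e' := integral_add (i1.add i2) i3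
  have e'' := integral_add i1 i2
  simp only [Pi.add_apply] at e e' e'' hint
  rw [e, e', e'', integral_const_mul, integral_const_mul,
    integral_const_mul, integral_const_mul, eN] at hint
  exact hint

theorem stT3a : StT3a := by
  intro s3 C1 μ Cp hs3 hC1 hμ0 hμ1 hCp
  obtain ⟨Cμ, hCμ⟩ : ∃ Cμ : ℝ, Cμ = (1 + μ / 8) * (2 * (1 + 1 / (μ / 8))) := ⟨_, rfl⟩
  have hCμ0 : 0 < Cμ := by rw [hCμ]; positivity
  have hcG := Fct.cG_pos s3
  have hK : 0 < Cμ * (48 * C1 ^ 2) * Fct.cG s3 := by positivity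
  refine ⟨Cp + (Cμ * (48 * C1 ^ 2) * Fct.cG s3) * (1000 * Real.exp (1 / 20)), 1, by positivity,
    le_rfl, ?_⟩
  intro CX δ W lam c2 ε κ u B η w χ om hW hlW hS hP
  refine ⟨Cμ * sig0 * (3 * C1 ^ 2) * ∫ x, Gw lam x ^ 2, fun R b hb => ?_⟩
  have hW0 : 0 < W := by linarith
  have ho := outer hs3 hC1 hμ0 hμ1 hCp hS hW hP hb hCμ
  have hN := far_int hS hW hlW hK.le
  have hCu : Cμ * sig0 * (3 * C1 ^ 2 / R) * (∫ x, Gw lam x ^ 2)
      = Cμ * sig0 * (3 * C1 ^ 2) * (∫ x, Gw lam x ^ 2) / R := by ring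
  rw [hCu] at ho
  have hDint0 : 0 ≤ ∫ x, w (phi u x) * rr u x * (η x * om x) ^ 2 * (qq u x + κ ^ 2) := by
    refine integral_nonneg fun x => ?_
    have hD0 := T2.wrr_nonneg hS x
    have hq := H147.qq_nonneg hS.hs.toSol hS.hs.lt x
    positivity
  have hV : 0 ≤ 1 / W + ε := by
    have := hP.ep0
    positivity
  exact fin_alg rfl (by positivity) hCp.le hV hDint0 (Real.exp_pos _).le
    (tsum_nonneg fun b => sq_nonneg _) ho hN

end Vale.Agent.P134.T3a283.T3a
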